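import Vale.Agent.P157.Parisi.Borel

/-! Scaling of the field in the nested functionals. -/

open MeasureTheory ProbabilityTheory Real

namespace Vale.Agent.P157.Par.Borel

open Parisi

lemma nestG_scale {c : ℝ} (hc : 0 ≤ c) : ∀ (r : ℕ) (m d : Fin r → ℝ) (Y : ℝ → ℝ) (y : ℝ),
    nestG r m (fun p => c * d p) Y (√c * y) = nestG r m d (fun x => Y (√c * x)) y
  | 0, _, _, _, _ => rfl
  | r + 1, m, d, Y, y => by
    have e : ∀ z, √c * y + √(c * d 0) * z = √c * (y + √(d 0) * z) := fun z => by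
      rw [Real.sqrt_mul hc]; ring
    have ht : Fin.tail (fun p => c * d p) = fun p => c * Fin.tail d p := rfl
    simp only [nestG, e, ht, nestG_scale hc r]

lemma tiltG_scale {c : ℝ} (hc : 0 ≤ c) : ∀ (r : ℕ) (m d : Fin r → ℝ) (Y F : ℝ → ℝ) (y : ℝ),
    tiltG r m (fun p => c * d p) Y F (√c * y) =
      tiltG r m d (fun x => Y (√c * x)) (fun x => F (√c * x)) y
  | 0, _, _, _, _, _ => rfl
  | r + 1, m, d, Y, F, y => by
    have e : ∀ z, √c * y + √(c * d 0) * z = √c * (y + √(d 0) * z) := fun z => by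
      rw [Real.sqrt_mul hc]; ring
    have ht : Fin.tail (fun p => c * d p) = fun p => c * Fin.tail d p := rfl
    simp only [tiltG, e, ht, nestG_scale hc r, tiltG_scale hc r]

lemma sqG_scale {c : ℝ} (hc : 0 ≤ c) : ∀ (r : ℕ) (m d : Fin r → ℝ) (Y F : ℝ → ℝ) (l : Fin (r + 1)) (y : ℝ),
    sqG r m (fun p => c * d p) Y F l (√c * y) =
      sqG r m d (fun x => Y (√c * x)) (fun x => F (√c * x)) l y
  | 0, _, _, _, _, _, _ => rfl
  | r + 1, m, d, Y, F, l, y => by
    have e : ∀ z, √c * y + √(c * d 0) * z = √c * (y + √(d 0) * z) := fun z => by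
      rw [Real.sqrt_mul hc]; ring
    have ht : Fin.tail (fun p => c * d p) = fun p => c * Fin.tail d p := rfl
    induction l using Fin.cases with
    | zero => simp only [sqG, Fin.cases_zero, tiltG_scale hc]
    | succ l => simp only [sqG, Fin.cases_succ, e, ht, nestG_scale hc r, sqG_scale hc r]

lemma tiltG_smul (a : ℝ) : ∀ (r : ℕ) (m d : Fin r → ℝ) (Y F : ℝ → ℝ) (y : ℝ),
    tiltG r m d Y (fun x => a * F x) y = a * tiltG r m d Y F y
  | 0, _, _, _, _, _ => rfl
  | r + 1, m, d, Y, F, y => by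
    simp only [tiltG, tiltG_smul a r, mul_left_comm _ a, integral_const_mul, mul_div_assoc]

lemma sqG_smul (a : ℝ) : ∀ (r : ℕ) (m d : Fin r → ℝ) (Y F : ℝ → ℝ) (l : Fin (r + 1)) (y : ℝ),
    sqG r m d Y (fun x => a * F x) l y = a ^ 2 * sqG r m d Y F l y
  | 0, _, _, _, _, _, _ => mul_pow _ _ _
  | r + 1, m, d, Y, F, l, y => by
    induction l using Fin.cases with
    | zero => simp only [sqG, Fin.cases_zero, tiltG_smul, mul_pow]
    | succ l => simp only [sqG, Fin.cases_succ, sqG_smul a r, mul_left_comm _ (a ^ 2), integral_const_mul,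
        mul_div_assoc]

lemma incr_smul {r : ℕ} (c : ℝ) (q : Fin (r + 1) → ℝ) :
    incr (fun l => c * q l) = fun p => c * incr q p := by
  funext p; simp only [incr]; ring

end Vale.Agent.P157.Par.Borel
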