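import Vale.Agent.P157.Par.Bridge
import Vale.Agent.P157.Par.Borel.Scale

/-! The spin term under scaling of the covariances: `spin s ≤ spin (t s) + (1 - t) s_r / 2` (reverse
Minkowski for exponents at most one, Jensen) and `spin (t s) ≤ spin s`. -/

open MeasureTheory ProbabilityTheory Real

namespace Vale.Agent.P157.Par.Borel

open Parisi Br

variable {X Y : ℝ → ℝ} {r : ℕ}

lemma gr_int (hY : Gr Y) (v y : ℝ) : Integrable (fun z => Y (y + v * z)) (gaussianReal 0 1) := by
  obtain ⟨hm, C, hb⟩ := hY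
  have hC : 0 ≤ C := nonneg_of_mul_nonneg_left (zero_le_one.trans ((hb 0).1.trans (hb 0).2)) (exp_pos _)
  refine ((integrable_exp_abs |v|).const_mul (C * exp |y|)).mono' (hm.comp (by fun_prop)).aestronglyMeasurable
    (Filter.Eventually.of_forall fun z => ?_)
  rw [Real.norm_eq_abs, abs_of_nonneg (zero_le_one.trans (hb _).1), mul_assoc, ← exp_add]
  refine (hb _).2.trans (mul_le_mul_of_nonneg_left (exp_le_exp.2 ?_) hC)
  exact (abs_add_le _ _).trans_eq (by rw [abs_mul])

lemma gr_rpow_int (hY : Gr Y) {m : ℝ} (hm1 : m ≤ 1) (v y : ℝ) :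
    Integrable (fun z => Y (y + v * z) ^ m) (gaussianReal 0 1) := by
  refine (gr_int hY v y).mono' ((hY.1.comp (by fun_prop)).pow_const m).aestronglyMeasurable
    (Filter.Eventually.of_forall fun z => ?_)
  obtain ⟨-, C, hb⟩ := hY
  rw [Real.norm_eq_abs, abs_of_nonneg (rpow_nonneg (zero_le_one.trans (hb _).1) _)]
  exact (rpow_le_rpow_of_exponent_le (hb _).1 hm1).trans_eq (rpow_one _)

lemma gr_int2 (hY : Gr Y) (a b y : ℝ) :
    Integrable (fun p : ℝ × ℝ => Y (y + a * p.1 + b * p.2)) ((gaussianReal 0 1).prod (gaussianReal 0 1)) := by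
  obtain ⟨hm, C, hb⟩ := hY
  have hC : 0 ≤ C := nonneg_of_mul_nonneg_left (zero_le_one.trans ((hb 0).1.trans (hb 0).2)) (exp_pos _)
  refine (((integrable_exp_abs |a|).mul_prod (integrable_exp_abs |b|)).const_mul (C * exp |y|)).mono'
    (hm.comp (by fun_prop)).aestronglyMeasurable (Filter.Eventually.of_forall fun p => ?_)
  rw [Real.norm_eq_abs, abs_of_nonneg (zero_le_one.trans (hb _).1), mul_assoc, ← mul_assoc (exp |y|),
    ← exp_add, ← exp_add]
  refine (hb _).2.trans (mul_le_mul_of_nonneg_left (exp_le_exp.2 ?_) hC)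
  exact ((abs_add_le _ _).trans (add_le_add (abs_add_le _ _) le_rfl)).trans_eq (by rw [abs_mul, abs_mul])

lemma gr_smooth (hY : Gr Y) (v : ℝ) : Gr (smooth Y v) := by
  obtain ⟨hm, C, hb⟩ := hY
  have hC : 0 ≤ C := nonneg_of_mul_nonneg_left (zero_le_one.trans ((hb 0).1.trans (hb 0).2)) (exp_pos _)
  refine ⟨((hm.comp (show Measurable fun p : ℝ × ℝ => p.1 + √v * p.2 by fun_prop)).stronglyMeasurable
    |>.integral_prod_right').measurable, C * ∫ z, exp (√v * |z|) ∂gaussianReal 0 1, fun y => ⟨?_, ?_⟩⟩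
  · simpa [smooth] using integral_mono (integrable_const 1) (gr_int ⟨hm, C, hb⟩ (√v) y) fun z => (hb _).1
  · rw [mul_right_comm, ← integral_const_mul]
    refine integral_mono (gr_int ⟨hm, C, hb⟩ (√v) y) ((integrable_exp_abs _).const_mul _) fun z => ?_
    rw [mul_assoc, ← exp_add]
    refine (hb _).2.trans (mul_le_mul_of_nonneg_left (exp_le_exp.2 ?_) hC)
    exact (abs_add_le _ _).trans_eq (by rw [abs_mul, abs_of_nonneg (sqrt_nonneg v)])

/-- two independent steps are one step -/
lemma gauss_two {G : ℝ → ℝ} (hG : Measurable G) (a b y : ℝ)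
    (hi : Integrable (fun p : ℝ × ℝ => G (y + a * p.1 + b * p.2)) ((gaussianReal 0 1).prod (gaussianReal 0 1))) :
    ∫ z, ∫ w, G (y + a * z + b * w) ∂gaussianReal 0 1 ∂gaussianReal 0 1 =
      ∫ u, G (y + √(a ^ 2 + b ^ 2) * u) ∂gaussianReal 0 1 := by
  have hmap : ((gaussianReal 0 1).prod (gaussianReal 0 1)).map (fun p : ℝ × ℝ => a * p.1 + b * p.2) =
      (gaussianReal 0 1).map (fun u => √(a ^ 2 + b ^ 2) * u) := by
    rw [gaussianReal_map_const_mul,
      show (fun p : ℝ × ℝ => a * p.1 + b * p.2) =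
        (fun p : ℝ × ℝ => p.1 + p.2) ∘ Prod.map (a * ·) (b * ·) from rfl,
      ← Measure.map_map (by fun_prop) (by fun_prop),
      ← Measure.map_prod_map _ _ (by fun_prop) (by fun_prop),
      gaussianReal_map_const_mul, gaussianReal_map_const_mul]
    show (gaussianReal _ _) ∗ (gaussianReal _ _) = _
    rw [gaussianReal_conv_gaussianReal]
    congr 1
    · simp
    · ext; simp [Real.sq_sqrt (add_nonneg (sq_nonneg a) (sq_nonneg b))]
  have hm : Measurable fun x => G (y + x) := hG.comp (by fun_prop)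
  rw [← integral_prod (fun p : ℝ × ℝ => G (y + a * p.1 + b * p.2)) hi]
  have h1 := integral_map (μ := (gaussianReal 0 1).prod (gaussianReal 0 1))
    (φ := fun p : ℝ × ℝ => a * p.1 + b * p.2) (by fun_prop) hm.aestronglyMeasurable
  have h2 := integral_map (μ := gaussianReal 0 1) (φ := fun u => √(a ^ 2 + b ^ 2) * u) (by fun_prop)
    hm.aestronglyMeasurable
  rw [hmap, h2] at h1
  simpa only [add_assoc] using h1.symm

lemma smooth_smooth (hY : Gr Y) {a b : ℝ} (ha : 0 ≤ a) (hb : 0 ≤ b) :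
    smooth (smooth Y a) b = smooth Y (a + b) := by
  funext y
  show ∫ z, ∫ w, Y (y + √b * z + √a * w) ∂gaussianReal 0 1 ∂gaussianReal 0 1 = _
  rw [gauss_two hY.1 _ _ _ (gr_int2 hY _ _ _), Real.sq_sqrt ha, Real.sq_sqrt hb, add_comm b a]
  rfl

/-- `x ^ m` lies below its tangent at `A` -/
lemma rpow_le_tangent {m x A : ℝ} (hm : 0 ≤ m) (hm1 : m ≤ 1) (hx : 0 ≤ x) (hA : 0 < A) :
    x ^ m ≤ A ^ m * (1 - m + m * (x / A)) := by
  have h := rpow_one_add_le_one_add_mul_self (s := x / A - 1) (p := m)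
    (by have := div_nonneg hx hA.le; linarith) hm hm1
  rw [add_sub_cancel] at h
  calc x ^ m = A ^ m * (x / A) ^ m := by rw [← mul_rpow hA.le (div_nonneg hx hA.le), mul_div_cancel₀ _ hA.ne']
    _ ≤ _ := mul_le_mul_of_nonneg_left (h.trans_eq (by ring)) (rpow_nonneg hA.le _)

/-- Jensen for `x ^ m` -/
lemma jensen_rpow (hX : Gr X) {m : ℝ} (hm : 0 ≤ m) (hm1 : m ≤ 1) (v y : ℝ) :
    ∫ z, X (y + v * z) ^ m ∂gaussianReal 0 1 ≤ (∫ z, X (y + v * z) ∂gaussianReal 0 1) ^ m := by
  set A := ∫ z, X (y + v * z) ∂gaussianReal 0 1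
  have hA : 0 < A := zero_lt_one.trans_le (by
    obtain ⟨-, C, hb⟩ := id hX
    simpa using integral_mono (integrable_const 1) (gr_int hX v y) fun z => (hb _).1)
  have hi := ((integrable_const (1 - m)).add (((gr_int hX v y).div_const A).const_mul m)).const_mul (A ^ m)
  refine (integral_mono (gr_rpow_int hX hm1 v y) hi fun z => rpow_le_tangent hm hm1
    (by obtain ⟨-, C, hb⟩ := hX; exact zero_le_one.trans (hb _).1) hA).trans_eq ?_
  simp only [Pi.add_apply]
  rw [integral_const_mul, integral_add (integrable_const _) (((gr_int hX v y).div_const A).const_mul m),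
    integral_const_mul, integral_div, div_self hA.ne']
  simp

/-- reverse Minkowski -/
lemma minkowski (hX : Gr X) {m : ℝ} (hm : 0 < m) (hm1 : m ≤ 1) (a b y : ℝ) :
    ∫ w, (∫ z, X (y + a * w + b * z) ^ m ∂gaussianReal 0 1) ^ (1 / m) ∂gaussianReal 0 1 ≤
      (∫ z, (∫ w, X (y + a * w + b * z) ∂gaussianReal 0 1) ^ m ∂gaussianReal 0 1) ^ (1 / m) := by
  obtain ⟨hXm, C, hb⟩ := id hX
  set γ := gaussianReal 0 1
  set A := fun z => ∫ w, X (y + a * w + b * z) ∂γ with hA
  have hiw : ∀ z, Integrable (fun w => X (y + a * w + b * z)) γ := fun z => by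
    simpa only [add_right_comm y] using gr_int hX a (y + b * z)
  have hA1 : ∀ z, 1 ≤ A z := fun z => by
    simpa [hA, γ] using integral_mono (integrable_const 1) (hiw z) fun w => (hb _).1
  have hi2 := gr_int2 hX a b y
  have hAi : Integrable A γ := hi2.integral_prod_right
  have hAm : AEStronglyMeasurable (fun z => A z ^ m) γ :=
    (hAi.aestronglyMeasurable.aemeasurable.pow_const m).aestronglyMeasurable
  have hAmi : Integrable (fun z => A z ^ m) γ := hAi.mono' hAm (Filter.Eventually.of_forall fun z => by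
    rw [Real.norm_eq_abs, abs_of_nonneg (rpow_nonneg (zero_le_one.trans (hA1 z)) _)]
    exact (rpow_le_rpow_of_exponent_le (hA1 z) hm1).trans_eq (rpow_one _))
  set S := ∫ z, A z ^ m ∂γ
  have hS : 1 ≤ S := by
    simpa [S, γ] using integral_mono (integrable_const 1) hAmi fun z => one_le_rpow (hA1 z) hm.le
  have hS0 : 0 < S := zero_lt_one.trans_le hS
  set W := fun p : ℝ × ℝ => X (y + a * p.1 + b * p.2) * A p.2 ^ (m - 1)
  have hWi : Integrable W (γ.prod γ) := by
    refine hi2.mono' (hi2.aestronglyMeasurable.mul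
      ((hAi.aestronglyMeasurable.comp_snd.aemeasurable.pow_const (m - 1)).aestronglyMeasurable))
      (Filter.Eventually.of_forall fun p => ?_)
    have h0 := zero_le_one.trans (hb (y + a * p.1 + b * p.2)).1
    rw [Real.norm_eq_abs, abs_mul, abs_of_nonneg h0,
      abs_of_nonneg (rpow_nonneg (zero_le_one.trans (hA1 _)) _)]
    exact mul_le_of_le_one_right h0 (rpow_le_one_of_one_le_of_nonpos (hA1 _) (by linarith))
  have key : ∀ᵐ w ∂γ, (∫ z, X (y + a * w + b * z) ^ m ∂γ) ^ (1 / m) ≤
      (∫ z, W (w, z) ∂γ) * S ^ (1 / m - 1) := by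
    filter_upwards [hWi.prod_right_ae] with w hw
    set P := ∫ z, W (w, z) ∂γ
    have hP : 0 < P := by
      rw [integral_pos_iff_support_of_nonneg (fun z => mul_nonneg (zero_le_one.trans (hb _).1)
        (rpow_nonneg (zero_le_one.trans (hA1 _)) _)) hw,
        Function.support_eq_univ fun z => (mul_pos (zero_lt_one.trans_le (hb _).1)
          (rpow_pos_of_pos (zero_lt_one.trans_le (hA1 _)) _)).ne']
      simp [γ]
    set T := P / S with hT
    have hT0 : 0 < T := div_pos hP hS0
    have hpt : ∀ z, X (y + a * w + b * z) ^ m ≤ T ^ m * ((1 - m) * A z ^ m + m / T * W (w, z)) := fun z => by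
      have hA0 := zero_lt_one.trans_le (hA1 z)
      refine (rpow_le_tangent hm.le hm1 (zero_le_one.trans (hb _).1) (mul_pos hT0 hA0)).trans_eq ?_
      simp only [W]
      rw [mul_rpow hT0.le hA0.le, rpow_sub_one hA0.ne']
      field_simp
    have h1 : ∫ z, X (y + a * w + b * z) ^ m ∂γ ≤ T ^ m * S := by
      refine (integral_mono (gr_rpow_int hX hm1 b _) (((hAmi.const_mul _).add (hw.const_mul _)).const_mul _)
        hpt).trans_eq ?_
      simp only [Pi.add_apply]
      rw [integral_const_mul, integral_add (hAmi.const_mul _) (hw.const_mul _), integral_const_mul,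
        integral_const_mul]
      change T ^ m * ((1 - m) * S + m / T * P) = _
      rw [hT]; field_simp; ring
    refine (rpow_le_rpow (integral_nonneg fun z => rpow_nonneg (zero_le_one.trans (hb _).1) _) h1
      (one_div_nonneg.2 hm.le)).trans_eq ?_
    rw [mul_rpow (rpow_nonneg hT0.le _) hS0.le, one_div, rpow_rpow_inv hT0.le hm.ne',
      rpow_sub_one hS0.ne', hT]
    ring
  have hWw : ∫ w, ∫ z, W (w, z) ∂γ ∂γ = S := by
    rw [integral_integral_swap hWi]
    refine integral_congr_ae (Filter.Eventually.of_forall fun z => ?_)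
    simp only [W]
    rw [integral_mul_const]
    show A z * A z ^ (m - 1) = A z ^ m
    rw [rpow_sub_one (zero_lt_one.trans_le (hA1 z)).ne', mul_div_cancel₀ _ (zero_lt_one.trans_le (hA1 z)).ne']
  refine (integral_mono_of_nonneg (Filter.Eventually.of_forall fun w =>
    rpow_nonneg (integral_nonneg fun z => rpow_nonneg (zero_le_one.trans (hb _).1) _) _)
    (hWi.integral_prod_left.mul_const _) key).trans_eq ?_
  rw [integral_mul_const, hWw, rpow_sub_one hS0.ne', mul_div_cancel₀ _ hS0.ne']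

lemma nestG_mono : ∀ (r : ℕ) (m d : Fin r → ℝ) {X Y : ℝ → ℝ}, Gr X → Gr Y → (∀ p, 0 < m p) → (∀ p, m p ≤ 1) →
    (∀ y, X y ≤ Y y) → ∀ y, nestG r m d X y ≤ nestG r m d Y y
  | 0, _, _, _, _, _, _, _, _, h, y => h y
  | r + 1, m, d, X, Y, hX, hY, hm, hm1, h, y => by
    obtain ⟨-, C, hb⟩ := Gr.nest r (Fin.tail m) (Fin.tail d) hX fun p => hm _
    refine rpow_le_rpow (integral_nonneg fun z => rpow_nonneg (zero_le_one.trans (hb _).1) _) ?_
      (one_div_nonneg.2 (hm 0).le)
    exact integral_mono (gr_rpow_int (Gr.nest r _ _ hX fun p => hm _) (hm1 0) _ _)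
      (gr_rpow_int (Gr.nest r _ _ hY fun p => hm _) (hm1 0) _ _) fun z =>
        rpow_le_rpow (zero_le_one.trans (hb _).1)
          (nestG_mono r _ _ hX hY (fun p => hm _) (fun p => hm1 _) h _) (hm 0).le

/-- smoothing moves inside the nested means -/
lemma smooth_nest : ∀ (r : ℕ) (m d : Fin r → ℝ) {Y : ℝ → ℝ}, Gr Y → (∀ p, 0 < m p) → (∀ p, m p ≤ 1) →
    ∀ (u y : ℝ), smooth (nestG r m d Y) u y ≤ nestG r m d (smooth Y u) y
  | 0, _, _, _, _, _, _, _, _ => le_rfl
  | r + 1, m, d, Y, hY, hm, hm1, u, y => by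
    set X := nestG r (Fin.tail m) (Fin.tail d) Y
    have hX : Gr X := Gr.nest r _ _ hY fun p => hm _
    refine (minkowski hX (hm 0) (hm1 0) (√u) (√(d 0)) y).trans ?_
    refine rpow_le_rpow (integral_nonneg fun z => rpow_nonneg (integral_nonneg fun w => by
      obtain ⟨-, C, hb⟩ := hX; exact zero_le_one.trans (hb _).1) _) ?_ (one_div_nonneg.2 (hm 0).le)
    simp only [add_right_comm y (√u * _)]
    refine integral_mono (gr_rpow_int (gr_smooth hX u) (hm1 0) _ _)
      (gr_rpow_int (Gr.nest r _ _ (gr_smooth hY u) fun p => hm _) (hm1 0) _ _) fun z => ?_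
    obtain ⟨-, C, hb⟩ := gr_smooth hX u
    exact rpow_le_rpow (zero_le_one.trans (hb (y + √(d 0) * z)).1)
      (smooth_nest r _ _ hY (fun p => hm _) (fun p => hm1 _) u _) (hm 0).le

/-- a fraction of every increment can be moved to the top -/
lemma nest_split {t : ℝ} (ht0 : 0 ≤ t) (ht1 : t ≤ 1) : ∀ (r : ℕ) (m d : Fin r → ℝ) {Y : ℝ → ℝ}, Gr Y →
    (∀ p, 0 < m p) → (∀ p, m p ≤ 1) → (∀ p, 0 ≤ d p) → ∀ y,
      nestG r m d Y y ≤ nestG r m (fun p => t * d p) (smooth Y ((1 - t) * ∑ p, d p)) y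
  | 0, _, _, _, _, _, _, _, y => by simp [nestG, smooth]
  | r + 1, m, d, Y, hY, hm, hm1, hd, y => by
    set v := (1 - t) * ∑ p, Fin.tail d p
    have hv : 0 ≤ v := mul_nonneg (by linarith) (Finset.sum_nonneg fun p _ => hd _)
    set u := (1 - t) * d 0
    have hu : 0 ≤ u := mul_nonneg (by linarith) (hd 0)
    set X := nestG r (Fin.tail m) (Fin.tail d) Y
    set M := nestG r (Fin.tail m) (fun p => t * Fin.tail d p) (smooth Y v)
    have hX : Gr X := Gr.nest r _ _ hY fun p => hm _
    have hM : Gr M := Gr.nest r _ _ (gr_smooth hY v) fun p => hm _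
    have hv' : (1 - t) * ∑ p, d p = v + u := by rw [Fin.sum_univ_succ]; simp only [v, u, Fin.tail]; ring
    obtain ⟨-, C, hb⟩ := id hX
    obtain ⟨-, C', hb'⟩ := gr_smooth hM u
    refine rpow_le_rpow (integral_nonneg fun z => rpow_nonneg (zero_le_one.trans (hb _).1) _) ?_
      (one_div_nonneg.2 (hm 0).le)
    calc ∫ z, X (y + √(d 0) * z) ^ m 0 ∂gaussianReal 0 1
        ≤ ∫ z, M (y + √(d 0) * z) ^ m 0 ∂gaussianReal 0 1 :=
          integral_mono (gr_rpow_int hX (hm1 0) _ _) (gr_rpow_int hM (hm1 0) _ _) fun z =>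
            rpow_le_rpow (zero_le_one.trans (hb _).1)
              (nest_split ht0 ht1 r _ _ hY (fun p => hm _) (fun p => hm1 _) (fun p => hd _) _) (hm 0).le
      _ = ∫ z, ∫ w, M (y + √(t * d 0) * z + √u * w) ^ m 0 ∂gaussianReal 0 1 ∂gaussianReal 0 1 := by
          rw [gauss_two (G := fun x => M x ^ m 0) (hM.1.pow_const _) _ _ _ ?_,
            sq_sqrt (mul_nonneg ht0 (hd 0)), sq_sqrt hu, show t * d 0 + u = d 0 by simp only [u]; ring]
          refine (gr_int2 hM (√(t * d 0)) (√u) y).mono' ((hM.1.comp (by fun_prop)).pow_const _).aestronglyMeasurable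
            (Filter.Eventually.of_forall fun p => ?_)
          obtain ⟨-, C, hb⟩ := hM
          rw [Real.norm_eq_abs, abs_of_nonneg (rpow_nonneg (zero_le_one.trans (hb _).1) _)]
          exact (rpow_le_rpow_of_exponent_le (hb _).1 (hm1 0)).trans_eq (rpow_one _)
      _ ≤ ∫ z, smooth M u (y + √(t * d 0) * z) ^ m 0 ∂gaussianReal 0 1 := by
          refine integral_mono_of_nonneg (Filter.Eventually.of_forall fun z => integral_nonneg fun w => ?_)
            (gr_rpow_int (gr_smooth hM u) (hm1 0) _ _)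
            (Filter.Eventually.of_forall fun z => jensen_rpow hM (hm 0).le (hm1 0) _ _)
          obtain ⟨-, C, hb⟩ := hM
          exact rpow_nonneg (zero_le_one.trans (hb _).1) _
      _ ≤ _ := by
          rw [hv', ← smooth_smooth hY hv hu]
          refine integral_mono (gr_rpow_int (gr_smooth hM u) (hm1 0) _ _)
            (gr_rpow_int (Gr.nest r _ _ (gr_smooth (gr_smooth hY v) u) fun p => hm _) (hm1 0) _ _) fun z =>
              rpow_le_rpow (zero_le_one.trans (hb' _).1) ?_ (hm 0).le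
          exact smooth_nest r _ _ (gr_smooth hY v) (fun p => hm _) (fun p => hm1 _) u _

lemma sum_incr : ∀ (r : ℕ) (s : Fin (r + 1) → ℝ), ∑ p, incr s p = s (Fin.last r) - s 0
  | 0, s => by simp
  | r + 1, s => by
    rw [Fin.sum_univ_castSucc]
    have h := sum_incr r (fun l => s l.castSucc)
    simp only [incr, Fin.succ_castSucc, Fin.succ_last] at h ⊢
    rw [h]; simp

lemma gr_cosh_scale {t : ℝ} (ht1 : t ≤ 1) : Gr fun x => cosh (√t * x) := by
  obtain ⟨-, C, hb⟩ := gr_cosh
  have hC : 0 ≤ C := nonneg_of_mul_nonneg_left (zero_le_one.trans ((hb 0).1.trans (hb 0).2)) (exp_pos _)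
  refine ⟨(continuous_cosh.comp (by fun_prop)).measurable, C, fun y => ⟨one_le_cosh _, (hb _).2.trans ?_⟩⟩
  refine mul_le_mul_of_nonneg_left (exp_le_exp.2 ?_) hC
  rw [abs_mul, abs_of_nonneg (sqrt_nonneg t)]
  exact mul_le_of_le_one_left (abs_nonneg y) (sqrt_le_one.2 ht1)

/-- the spin term grows with the covariances -/
theorem spinTerm_mono {m : Fin r → ℝ} (hm : ∀ p, 0 < m p) (hm1 : ∀ p, m p ≤ 1) (s : Fin (r + 1) → ℝ)
    {t : ℝ} (ht0 : 0 ≤ t) (ht1 : t ≤ 1) : spinTerm m (fun l => t * s l) ≤ spinTerm m s := by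
  have e : ∀ z, √(t * s 0) * z = √t * (√(s 0) * z) := fun z => by rw [sqrt_mul ht0]; ring
  simp only [spinTerm, incr_smul, e, nestG_scale ht0]
  obtain ⟨-, C, hb⟩ := Gr.nest r m (incr s) (gr_cosh_scale ht1) hm
  refine integral_mono ((Gr.nest r m _ (gr_cosh_scale ht1) hm).integrable_log _)
    ((Gr.nest r m _ gr_cosh hm).integrable_log _) fun z => log_le_log (zero_lt_one.trans_le (hb _).1)
      (nestG_mono r m _ (gr_cosh_scale ht1) gr_cosh hm hm1 (fun y => cosh_le_cosh.2 ?_) _)
  rw [abs_mul, abs_of_nonneg (sqrt_nonneg t)]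
  exact mul_le_of_le_one_left (abs_nonneg y) (sqrt_le_one.2 ht1)

/-- the spin term minus half the top covariance falls with the covariances -/
theorem spinTerm_scale {m : Fin r → ℝ} (hm : ∀ p, 0 < m p) (hm1 : ∀ p, m p ≤ 1) {s : Fin (r + 1) → ℝ}
    (hs : Monotone s) (hs0 : 0 ≤ s 0) {t : ℝ} (ht0 : 0 ≤ t) (ht1 : t ≤ 1) :
    spinTerm m s ≤ spinTerm m (fun l => t * s l) + (1 - t) * s (Fin.last r) / 2 := by
  set d := incr s
  have hd : ∀ p, 0 ≤ d p := fun p => sub_nonneg.2 (hs (Fin.castSucc_lt_succ (i := p)).le)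
  set v := (1 - t) * ∑ p, d p
  set u := (1 - t) * s 0
  have hv : 0 ≤ v := mul_nonneg (by linarith) (Finset.sum_nonneg fun p _ => hd p)
  have hu : 0 ≤ u := mul_nonneg (by linarith) hs0
  set N := nestG r m d Real.cosh
  have hN : Gr N := Gr.nest r m d gr_cosh hm
  set M := nestG r m (fun p => t * d p) (smooth Real.cosh v)
  have hM : Gr M := Gr.nest r m _ (gr_smooth gr_cosh v) hm
  set T := nestG r m (fun p => t * d p) Real.cosh
  have hT : Gr T := Gr.nest r m _ gr_cosh hm
  obtain ⟨-, C, hb⟩ := id hN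
  obtain ⟨-, C', hb'⟩ := id hM
  have h2 : spinTerm m s = ∫ z, ∫ w, log (N (0 + √(t * s 0) * z + √u * w)) ∂gaussianReal 0 1 ∂gaussianReal 0 1 := by
    rw [gauss_two (G := fun x => log (N x)) hN.1.log _ _ _ ?_, sq_sqrt (mul_nonneg ht0 hs0), sq_sqrt hu,
      show t * s 0 + u = s 0 by simp only [u]; ring]
    · simp [spinTerm, N, d]
    refine (gr_int2 hN (√(t * s 0)) (√u) 0).mono' (hN.1.comp (by fun_prop)).log.aestronglyMeasurable
      (Filter.Eventually.of_forall fun p => ?_)
    have h1 := (hb (0 + √(t * s 0) * p.1 + √u * p.2)).1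
    rw [Real.norm_eq_abs, abs_of_nonneg (log_nonneg h1)]
    linarith [log_le_sub_one_of_pos (zero_lt_one.trans_le h1)]
  have hpt : ∀ x, ∫ w, log (N (x + √u * w)) ∂gaussianReal 0 1 ≤ v / 2 + u / 2 + log (T x) := fun x => by
    have hsm : smooth (smooth Real.cosh v) u = fun y => exp ((v + u) / 2) * cosh y := by
      rw [smooth_smooth gr_cosh hv hu]; funext y; exact smooth_cosh (add_nonneg hv hu) y
    have h3 : smooth M u x ≤ exp ((v + u) / 2) * T x := by
      refine (smooth_nest r m _ (gr_smooth gr_cosh v) hm hm1 u x).trans_eq ?_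
      rw [hsm]
      exact nestG_smul r m _ (fun y => (cosh_pos y).le) hm (exp_pos _).le x
    have hA : 0 < smooth M u x := by
      obtain ⟨-, C, hb⟩ := gr_smooth hM u
      exact zero_lt_one.trans_le (hb x).1
    have hlog : ∀ w, log (N (x + √u * w)) ≤ M (x + √u * w) / smooth M u x - 1 + log (smooth M u x) := fun w => by
      have h4 : N (x + √u * w) ≤ M (x + √u * w) := nest_split ht0 ht1 r m d gr_cosh hm hm1 hd _
      have hMp := zero_lt_one.trans_le (hb' (x + √u * w)).1
      have h5 := log_le_sub_one_of_pos (div_pos hMp hA)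
      rw [log_div hMp.ne' hA.ne'] at h5
      linarith [log_le_log (zero_lt_one.trans_le (hb _).1) h4]
    have hi := (((gr_int hM (√u) x).div_const (smooth M u x)).sub (integrable_const 1)).add
      (integrable_const (log (smooth M u x)))
    refine (integral_mono_of_nonneg (Filter.Eventually.of_forall fun w => log_nonneg (hb _).1) hi
      (Filter.Eventually.of_forall hlog)).trans ?_
    simp only [Pi.add_apply, Pi.sub_apply]
    rw [integral_add, integral_sub ((gr_int hM (√u) x).div_const _) (integrable_const _), integral_div]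
    · show smooth M u x / smooth M u x - ∫ _w, (1:ℝ) ∂gaussianReal 0 1 + _ ≤ _
      obtain ⟨-, _, hbT⟩ := hT
      rw [div_self hA.ne']
      simp only [integral_const, probReal_univ, one_smul, sub_self, zero_add]
      refine (log_le_log hA h3).trans_eq ?_
      rw [log_mul (exp_pos _).ne' (zero_lt_one.trans_le (hbT x).1).ne', log_exp]
      ring
    · exact ((gr_int hM (√u) x).div_const _).sub (integrable_const _)
    · exact integrable_const _
  have hsplit : v / 2 + u / 2 = (1 - t) * s (Fin.last r) / 2 := by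
    simp only [v, u, d, sum_incr]; ring
  have hsp : spinTerm m (fun l => t * s l) = ∫ z, log (T (√(t * s 0) * z)) ∂gaussianReal 0 1 := by
    simp only [spinTerm, incr_smul, T, d]
  rw [h2, hsp]
  simp only [zero_add]
  refine (integral_mono_of_nonneg (Filter.Eventually.of_forall fun z => integral_nonneg fun w => log_nonneg (hb _).1)
    ((integrable_const (v / 2 + u / 2)).add (hT.integrable_log (√(t * s 0))))
    (Filter.Eventually.of_forall fun z => hpt _)).trans_eq ?_
  simp only [Pi.add_apply]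
  rw [integral_add (integrable_const _) (hT.integrable_log _), ← hsplit]
  simp [add_comm]

end Vale.Agent.P157.Par.Borel
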