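import Vale.Agent.P157.Par.NodeLim
import Vale.Agent.P157.Par.Bridge

/-! The values are bounded below by a constant that depends only on `sup |f|` and `α`: along the
tilted path the mean of `log X` increases by at least half the exponent times the increment of the
overlap times `Γ` at each level. -/

open MeasureTheory ProbabilityTheory Real Finset
open Vale.Agent.P168.MP (Ok)

namespace Vale.Agent.P157.Par

namespace Bd0

open Br

/-! ### sums by parts -/

/-- the exponent at level `l`, zero at the root -/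
def mm (m : ℕ → ℝ) (l : ℕ) : ℝ := if l = 0 then 0 else m l

lemma mm_succ (m : ℕ → ℝ) (l : ℕ) : mm m (l + 1) = m (l + 1) := if_neg (Nat.succ_ne_zero l)

lemma abel (m s : ℕ → ℝ) : ∀ n : ℕ, ∑ l ∈ range n, m (l + 1) * (s (l + 1) - s l) =
    mm m n * s n + ∑ l ∈ range n, (mm m l - m (l + 1)) * s l
  | 0 => by simp [mm]
  | n + 1 => by
    rw [sum_range_succ, abel m s n, sum_range_succ, mm_succ]
    ring

lemma sum_parts (m : ℕ → ℝ) : ∀ n : ℕ, ∑ l ∈ range n, (m (l + 1) - mm m l) = mm m n
  | 0 => by simp [mm]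
  | n + 1 => by rw [sum_range_succ, sum_parts m n, mm_succ]; ring

lemma parts_le {m q Γ : ℕ → ℝ} {R : ℕ} (hdm : ∀ l, l < R → 0 ≤ m (l + 1) - mm m l)
    (hq : ∀ l, l < R → q l ≤ q (l + 1)) (hΓ : ∀ i j, i ≤ j → j < R → Γ i ≤ Γ j) :
    ∀ n, n ≤ R → ∑ l ∈ range n, (m (l + 1) - mm m l) * Γ l * (q n - q l) ≤
      ∑ l ∈ range n, m (l + 1) * (q (l + 1) - q l) * Γ l
  | 0, _ => by simp
  | n + 1, hn => by
    have ih := parts_le hdm hq hΓ n (by omega)
    have hd : 0 ≤ q (n + 1) - q n := sub_nonneg.2 (hq n (by omega))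
    have e : ∑ l ∈ range n, (m (l + 1) - mm m l) * Γ l * (q (n + 1) - q l) =
        (∑ l ∈ range n, (m (l + 1) - mm m l) * Γ l * (q n - q l)) +
          (q (n + 1) - q n) * ∑ l ∈ range n, (m (l + 1) - mm m l) * Γ l := by
      rw [mul_sum, ← sum_add_distrib]
      exact sum_congr rfl fun l _ => by ring
    have h2 : ∑ l ∈ range n, (m (l + 1) - mm m l) * Γ l ≤ Γ n * mm m n := by
      rw [← sum_parts m n, mul_sum]
      refine sum_le_sum fun l hl => ?_
      have := mul_le_mul_of_nonneg_left (hΓ l n (mem_range.1 hl).le (by omega))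
        (hdm l (by have := mem_range.1 hl; omega))
      linarith
    rw [sum_range_succ, sum_range_succ, e]
    nlinarith [mul_le_mul_of_nonneg_left h2 hd]

/-! ### one tilted step -/

lemma mgf_std (t : ℝ) : ∫ z, exp (t * z) ∂gaussianReal 0 1 = exp (t ^ 2 / 2) := by
  have h := congrFun (mgf_id_gaussianReal (μ := 0) (v := 1)) t
  simpa [mgf] using h

variable {f f1 f2 f3 : ℝ → ℝ} {B D : ℝ} {R : ℕ} {m q : ℕ → ℝ}

/-- `log` of the value `k` levels below the top -/
noncomputable def logV (f : ℝ → ℝ) (R : ℕ) (m q : ℕ → ℝ) (k : ℕ) (y : ℝ) : ℝ :=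
  log (Vn (fun y => exp (f y)) R m q k y)

/-- the derivative of `logV` -/
noncomputable def grd (f f1 : ℝ → ℝ) (R : ℕ) (m q : ℕ → ℝ) (k : ℕ) : ℝ → ℝ :=
  tlN (fun y => exp (f y)) R m q 0 k f1

variable (hS : Sm f f1 f2 f3 B D) (hB : ∀ x, f x ≤ B) (hex : Ex R m)
include hS hB hex

lemma V_box {k : ℕ} (hk : k ≤ R) : Box (exp (-B)) (exp B) (Vn (fun y => exp (f y)) R m q k) :=
  Vn_box (box_exp hS hB).1 (exp_pos _) hex.pos k hk

lemma V_pos {k : ℕ} (hk : k ≤ R) (y : ℝ) : 0 < Vn (fun y => exp (f y)) R m q k y :=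
  (exp_pos _).trans_le ((V_box hS hB hex hk).2 y).1

lemma logV_box {k : ℕ} (hk : k ≤ R) : Box (-B) B (logV f R m q k) :=
  ⟨(V_box hS hB hex hk).1.log, fun y =>
    ⟨(le_log_iff_exp_le (V_pos hS hB hex hk y)).2 ((V_box hS hB hex hk).2 y).1,
      (log_le_iff_le_exp (V_pos hS hB hex hk y)).2 ((V_box hS hB hex hk).2 y).2⟩⟩

omit hB in
lemma grd_prop {k : ℕ} (hk : k ≤ R) :
    Continuous (grd f f1 R m q k) ∧ ∀ y, |grd f f1 R m q k y| ≤ D :=
  tlN_prop (adm_exp hS) hex q 0 (continuous_iff_continuousAt.2 fun x => (hS.d1 x).continuousAt)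
    hS.b1 k (by omega)

omit hB in
lemma V_cont {k : ℕ} (hk : k ≤ R) : Continuous (Vn (fun y => exp (f y)) R m q k) :=
  (Vn_adm (adm_exp hS) hex q k hk).choose_spec.cont

lemma hasDerivAt_Vn : ∀ k, k ≤ R → ∀ y, HasDerivAt (Vn (fun y => exp (f y)) R m q k)
    (Vn (fun y => exp (f y)) R m q k y * grd f f1 R m q k y) y
  | 0, _, y => by simpa [Vn, grd, tlN] using (hS.d0 y).exp
  | k + 1, hk, y => by
    have ih := hasDerivAt_Vn k (by omega)
    set X := Vn (fun y => exp (f y)) R m q k with hX
    set h := grd f f1 R m q k with hh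
    set σ := √(q (R - k) - q (R - (k + 1)))
    have hm : 0 < m (R - k) := (hex.mem (show k < R by omega)).1
    set M := m (R - k)
    have hXp : ∀ u, 0 < X u := fun u => V_pos hS hB hex (by omega) u
    have hXc : Continuous X := V_cont hS hex (by omega)
    have hXm : Continuous fun u => X u ^ M := hXc.rpow_const fun u => Or.inl (hXp u).ne'
    have hW : Box (exp (-B) ^ M) (exp B ^ M) fun u => X u ^ M :=
      (V_box hS hB hex (show k ≤ R by omega)).rpow (exp_pos _).le hm.le
    obtain ⟨hhc, hhb⟩ := grd_prop hS hex (q := q) (show k ≤ R by omega)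
    have hd : ∀ u z : ℝ, HasDerivAt (fun u => X (u + σ * z) ^ M)
        (M * (X (u + σ * z) ^ M * h (u + σ * z))) u := fun u z => by
      have h1 : HasDerivAt (fun u => u + σ * z) 1 u := (hasDerivAt_id u).add_const _
      refine (((ih (u + σ * z)).rpow_const (p := M) (Or.inl (hXp _).ne')).comp u h1).congr_deriv ?_
      rw [mul_one, rpow_sub_one (hXp _).ne']
      field_simp [(hXp (u + σ * z)).ne']
    have hI := (hasDerivAt_integral_of_dominated_loc_of_deriv_le (μ := gaussianReal 0 1)
      (F := fun u z => X (u + σ * z) ^ M) (F' := fun u z => M * (X (u + σ * z) ^ M * h (u + σ * z)))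
      (bound := fun _ => M * (exp B ^ M * D)) (Metric.ball_mem_nhds y one_pos)
      (Filter.Eventually.of_forall fun u => (hXm.comp (by fun_prop)).aestronglyMeasurable)
      (hW.int _ y) (((hXm.mul hhc).comp (by fun_prop)).const_mul M).aestronglyMeasurable
      (Filter.Eventually.of_forall fun z u _ => by
        rw [norm_mul, norm_mul, Real.norm_eq_abs, Real.norm_eq_abs, Real.norm_eq_abs, abs_of_pos hm,
          abs_of_pos (rpow_pos_of_pos (hXp _) _)]
        exact mul_le_mul_of_nonneg_left (mul_le_mul (hW.2 _).2 (hhb _) (abs_nonneg _)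
          (rpow_nonneg (exp_pos _).le _)) hm.le)
      (integrable_const _) (Filter.Eventually.of_forall fun z u _ => hd u z)).2
    rw [integral_const_mul] at hI
    have hIpos : 0 < ∫ z, X (y + σ * z) ^ M ∂gaussianReal 0 1 :=
      (rpow_pos_of_pos (exp_pos _) _).trans_le ((hW.avg _).2 y).1
    refine (hI.rpow_const (p := 1 / M) (Or.inl hIpos.ne')).congr_deriv ?_
    have e : grd f f1 R m q (k + 1) y =
        (∫ z, X (y + σ * z) ^ M * h (y + σ * z) ∂gaussianReal 0 1) /
          ∫ z, X (y + σ * z) ^ M ∂gaussianReal 0 1 := by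
      rw [grd, tlN, Nat.zero_add]
      rfl
    have e2 : Vn (fun y => exp (f y)) R m q (k + 1) y = (∫ z, X (y + σ * z) ^ M ∂gaussianReal 0 1) ^ (1 / M) := rfl
    rw [e, e2, rpow_sub_one hIpos.ne']
    field_simp

/-- the mean of `log X` increases along a tilted step -/
lemma tilt_gain (hq : Monotone q) {k : ℕ} (hk : k < R) (y : ℝ) :
    logV f R m q (k + 1) y + m (R - k) * (q (R - k) - q (R - (k + 1))) / 2 * grd f f1 R m q (k + 1) y ^ 2 ≤
      tl (fun y => exp (f y)) R m q k (logV f R m q k) y := by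
  set X := Vn (fun y => exp (f y)) R m q k with hX
  set h := grd f f1 R m q k
  set d := q (R - k) - q (R - (k + 1))
  set σ := √d
  have hd : 0 ≤ d := sub_nonneg.2 (hq (by omega))
  set M := m (R - k)
  have hm : 0 < M := (hex.mem hk).1
  have hXp : ∀ u, 0 < X u := fun u => V_pos hS hB hex hk.le u
  have hXm : Continuous fun u => X u ^ M := (V_cont hS hex hk.le).rpow_const fun u => Or.inl (hXp u).ne'
  have hW : Box (exp (-B) ^ M) (exp B ^ M) fun u => X u ^ M :=
    (V_box hS hB hex hk.le).rpow (exp_pos _).le hm.le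
  obtain ⟨hhc, hhb⟩ := grd_prop hS hex (q := q) hk.le
  have hwb : ∀ u, |X u ^ M| ≤ exp B ^ M := fun u => by
    rw [abs_of_pos (rpow_pos_of_pos (hXp u) _)]; exact (hW.2 u).2
  set I := ∫ z, X (y + σ * z) ^ M ∂gaussianReal 0 1 with hI
  set J := ∫ z, X (y + σ * z) ^ M * h (y + σ * z) ∂gaussianReal 0 1 with hJ
  set Q := ∫ z, X (y + σ * z) ^ M * logV f R m q k (y + σ * z) ∂gaussianReal 0 1 with hQ
  have hIpos : 0 < I := (rpow_pos_of_pos (exp_pos _) _).trans_le ((hW.avg d).2 y).1
  have hD : ∀ u, |M * (X u ^ M * h u)| ≤ M * (exp B ^ M * D) := fun u => by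
    rw [abs_mul, abs_mul, abs_of_pos hm]
    exact mul_le_mul_of_nonneg_left (mul_le_mul (hwb u) (hhb u) (abs_nonneg _)
      (rpow_nonneg (exp_pos _).le _)) hm.le
  have hstein : ∫ z, z * X (y + σ * z) ^ M ∂gaussianReal 0 1 = σ * M * J := by
    rw [Vale.Agent.P150.stein_one (f := fun z => X (y + σ * z) ^ M)
      (f' := fun z => σ * (M * (X (y + σ * z) ^ M * h (y + σ * z))))
      (C := max (exp B ^ M) (σ * (M * (exp B ^ M * D)))) (M := 0) (fun t => ?_)
      (((hXm.mul hhc).const_mul M |>.const_mul σ).comp (by fun_prop))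
      (fun t => by simpa using Or.inl (hwb _)) (fun t => ?_)]
    · rw [integral_const_mul, integral_const_mul, hJ]; ring
    · have h1 : HasDerivAt (fun z => y + σ * z) σ t := by
        simpa using ((hasDerivAt_id t).const_mul σ).const_add y
      refine (((hasDerivAt_Vn hS hB hex (q := q) k hk.le (y + σ * t)).rpow_const (p := M)
        (Or.inl (hXp _).ne')).comp t h1).congr_deriv ?_
      rw [rpow_sub_one (hXp _).ne']
      field_simp [(hXp (y + σ * t)).ne']
      simp only [X, h]
      ring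
    · simp only [zero_mul, exp_zero, mul_one]
      rw [abs_mul, abs_of_nonneg (Real.sqrt_nonneg d)]
      exact (mul_le_mul_of_nonneg_left (hD _) (Real.sqrt_nonneg d)).trans (le_max_right _ _)
  set a := σ * M * (J / I)
  have hz : Integrable (fun z => z * X (y + σ * z) ^ M) (gaussianReal 0 1) := by
    refine ((Br.integrable_exp_abs 1).const_mul (exp B ^ M)).mono'
      ((continuous_id.mul (hXm.comp (by fun_prop))).aestronglyMeasurable)
      (Filter.Eventually.of_forall fun z => ?_)
    rw [Real.norm_eq_abs, abs_mul, one_mul, mul_comm]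
    exact mul_le_mul (hwb _) (by linarith [add_one_le_exp |z|]) (abs_nonneg _) (rpow_nonneg (exp_pos _).le _)
  have hWL : Integrable (fun z => X (y + σ * z) ^ M * logV f R m q k (y + σ * z)) (gaussianReal 0 1) :=
    ((logV_box hS hB hex hk.le).int d y).bdd_mul (hXm.comp (by fun_prop)).aestronglyMeasurable
      (Filter.Eventually.of_forall fun z => hwb _)
  have hWi := hW.int d y
  have he : Integrable (fun z => I * exp (a * z - a ^ 2 / 2)) (gaussianReal 0 1) := by
    refine ((integrable_exp_mul_gaussianReal (μ := 0) (v := 1) a).const_mul (I / exp (a ^ 2 / 2))).congr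
      (Filter.Eventually.of_forall fun z => ?_)
    simp only [exp_sub]
    ring
  have hpt : ∀ z, X (y + σ * z) ^ M - I * exp (a * z - a ^ 2 / 2) ≤
      M * (X (y + σ * z) ^ M * logV f R m q k (y + σ * z)) - (log I - a ^ 2 / 2) * X (y + σ * z) ^ M -
        a * (z * X (y + σ * z) ^ M) := fun z => by
    set W := X (y + σ * z) ^ M
    have hWp : 0 < W := rpow_pos_of_pos (hXp _) _
    have hep : 0 < I * exp (a * z - a ^ 2 / 2) := mul_pos hIpos (exp_pos _)
    have hl := log_le_sub_one_of_pos (div_pos hep hWp)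
    rw [log_div hep.ne' hWp.ne', log_mul hIpos.ne' (exp_pos _).ne', log_exp] at hl
    have hlw : log W = M * logV f R m q k (y + σ * z) := log_rpow (hXp _) M
    have := mul_le_mul_of_nonneg_left hl hWp.le
    rw [mul_sub W (_ / W) 1, mul_div_cancel₀ _ hWp.ne', hlw] at this
    nlinarith [this]
  have key := integral_mono (hWi.sub he) (((hWL.const_mul M).sub (hWi.const_mul _)).sub (hz.const_mul a)) hpt
  rw [integral_sub' hWi he, integral_sub' ((hWL.const_mul M).sub (hWi.const_mul _)) (hz.const_mul a),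
    integral_sub' (hWL.const_mul M) (hWi.const_mul _), integral_const_mul, integral_const_mul,
    integral_const_mul, integral_const_mul, hstein] at key
  have he1 : ∫ z, exp (a * z - a ^ 2 / 2) ∂gaussianReal 0 1 = 1 := by
    simp only [exp_sub]
    rw [integral_div, mgf_std, div_self (exp_pos _).ne']
  rw [he1, mul_one, ← hI, ← hQ] at key
  have hLV : logV f R m q (k + 1) y = log I / M := by
    rw [logV, Vn, log_rpow hIpos]
    ring
  have hgr : grd f f1 R m q (k + 1) y = J / I := by
    rw [grd, tlN, Nat.zero_add]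
    rfl
  have htl : tl (fun y => exp (f y)) R m q k (logV f R m q k) y = Q / I := rfl
  rw [hLV, hgr, htl]
  rw [show log I / M + M * d / 2 * (J / I) ^ 2 = (log I + M ^ 2 * d / 2 * (J / I) ^ 2) / M by field_simp,
    div_le_div_iff₀ hm hIpos]
  have hsd : σ ^ 2 = d := Real.sq_sqrt hd
  have ea : a * (σ * M * J) = M ^ 2 * d * (J / I) ^ 2 * I := by
    simp only [a]; rw [← hsd]; field_simp
  have ea2 : a ^ 2 = M ^ 2 * d * (J / I) ^ 2 := by
    simp only [a]; rw [← hsd]; ring
  rw [ea, ea2] at key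
  nlinarith [key]

omit hB in
lemma tlN_add {F G : ℝ → ℝ} {c c' : ℝ} (hF : Box (-c) c F) (hG : Box (-c') c' G) (hB : ∀ x, f x ≤ B) :
    ∀ (j k : ℕ), k + j ≤ R → ∀ y, tlN (fun y => exp (f y)) R m q k j (fun u => F u + G u) y =
      tlN (fun y => exp (f y)) R m q k j F y + tlN (fun y => exp (f y)) R m q k j G y
  | 0, _, _, y => rfl
  | j + 1, k, hj, y => by
    have hm : 0 < m (R - (k + j)) := (hex.mem (show k + j < R by omega)).1
    set v := q (R - (k + j)) - q (R - (k + j + 1))
    have hW := (V_box (q := q) hS hB hex (show k + j ≤ R by omega)).rpow (exp_pos _).le hm.le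
    have hi : ∀ {H : ℝ → ℝ} {a b : ℝ}, Box a b H → Integrable (fun z =>
        Vn (fun y => exp (f y)) R m q (k + j) (y + √v * z) ^ m (R - (k + j)) * H (y + √v * z))
        (gaussianReal 0 1) := fun {H a b} hH =>
      (hH.int v y).bdd_mul (c := exp B ^ m (R - (k + j))) (hW.1.comp (by fun_prop)).aestronglyMeasurable
        (Filter.Eventually.of_forall fun z => by
          rw [Real.norm_eq_abs, abs_of_nonneg (rpow_nonneg (V_pos hS hB hex (by omega) _).le _)]
          exact (hW.2 _).2)
    simp only [tlN, tl, tlN_add hF hG hB j k (by omega), mul_add]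
    rw [integral_add (hi (tlN_box (box_exp hS hB).1 (exp_pos _) hex.pos hF j k (by omega)))
      (hi (tlN_box (box_exp hS hB).1 (exp_pos _) hex.pos hG j k (by omega))), add_div]

omit hS hB hex in
lemma tlN_const_mul (c : ℝ) (F : ℝ → ℝ) :
    ∀ (j k : ℕ) (y : ℝ), tlN (fun y => exp (f y)) R m q k j (fun u => c * F u) y =
      c * tlN (fun y => exp (f y)) R m q k j F y
  | 0, _, _ => rfl
  | j + 1, k, y => by
    simp only [tlN, tl, tlN_const_mul c F j k, mul_left_comm _ c, integral_const_mul, mul_div_assoc]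

/-- half of the sum of the increments is at most the total gain -/
lemma gain_sum (hq : Monotone q) :
    1 / 2 * (∑ l ∈ range R, m (l + 1) * (q (l + 1) - q l) *
      Gamma (fun y => exp (f y)) f1 R m q l) ≤ B - Phi (fun y => exp (f y)) R m q := by
  set e := fun y => exp (f y)
  set A : ℕ → ℝ := fun l => ∫ z, tlN e R m q (R - l) l (logV f R m q (R - l)) (√(q 0) * z) ∂gaussianReal 0 1
  have hA0 : A 0 = Phi e R m q := by simp [A, tlN, logV, Phi, e]
  have hint : ∀ {F : ℝ → ℝ} {a b : ℝ}, Box a b F → ∀ l, l ≤ R →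
      Integrable (fun z => tlN e R m q (R - l) l F (√(q 0) * z)) (gaussianReal 0 1) := fun {F a b} hF l hl => by
    simpa using (tlN_box (q := q) (box_exp hS hB).1 (exp_pos _) hex.pos hF l (R - l) (by omega)).int (q 0) 0
  have hAR : A R ≤ B := by
    have h := (tlN_box (q := q) (box_exp hS hB).1 (exp_pos _) hex.pos (logV_box (q := q) hS hB hex (k := R - R) (by omega))
      R (R - R) (by omega)).avg (q 0)
    simpa [A] using (h.2 0).2
  have hstep : ∀ l, l < R →
      m (l + 1) * (q (l + 1) - q l) / 2 * Gamma e f1 R m q l ≤ A (l + 1) - A l := fun l hl => by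
    obtain ⟨k, hk⟩ : ∃ k, R - l = k + 1 := ⟨R - l - 1, by omega⟩
    have hk' : R - (l + 1) = k := by omega
    have e1 : R - k = l + 1 := by omega
    have e2 : R - (k + 1) = l := by omega
    set c := m (l + 1) * (q (l + 1) - q l) / 2
    have hc : 0 ≤ c :=
      div_nonneg (mul_nonneg (hex.pos _ (by omega) (by omega)).le (sub_nonneg.2 (hq (Nat.le_succ l)))) two_pos.le
    set G := fun u => c * grd f f1 R m q (k + 1) u ^ 2
    have hL := logV_box (q := q) hS hB hex (show k + 1 ≤ R by omega)
    obtain ⟨hgc, hgb⟩ := grd_prop hS hex (q := q) (show k + 1 ≤ R by omega)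
    have hG : Box (-(c * D ^ 2)) (c * D ^ 2) G := ⟨((hgc.pow 2).const_mul c).measurable, fun u => by
      have h1 : grd f f1 R m q (k + 1) u ^ 2 ≤ D ^ 2 := sq_le_sq' (abs_le.1 (hgb u)).1 (abs_le.1 (hgb u)).2
      exact ⟨by nlinarith [sq_nonneg (grd f f1 R m q (k + 1) u)], mul_le_mul_of_nonneg_left h1 hc⟩⟩
    have hT := tl_box (q := q) (box_exp hS hB).1 (exp_pos _) hex.pos (logV_box (q := q) hS hB hex (show k ≤ R by omega))
      (show k < R by omega)
    have hsum : Box (-(B + c * D ^ 2)) (B + c * D ^ 2) fun u => logV f R m q (k + 1) u + G u :=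
      ⟨hL.1.add hG.1, fun u => ⟨by linarith [(hL.2 u).1, (hG.2 u).1], by linarith [(hL.2 u).2, (hG.2 u).2]⟩⟩
    have hTw : Box (-(B + c * D ^ 2)) (B + c * D ^ 2) (tl e R m q k (logV f R m q k)) :=
      ⟨hT.1, fun u => ⟨by nlinarith [(hT.2 u).1, mul_nonneg hc (sq_nonneg D)],
        by nlinarith [(hT.2 u).2, mul_nonneg hc (sq_nonneg D)]⟩⟩
    have hmono := fun z => tlN_mono (q := q) (box_exp hS hB).1 (exp_pos _) hex.pos hsum hTw (fun u => by
      have := tilt_gain hS hB hex hq (show k < R by omega) u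
      simp only [e1, e2] at this
      exact this) l (k + 1) (by omega) (√(q 0) * z)
    have eR : ∀ z, tlN e R m q (R - (l + 1)) (l + 1) (logV f R m q (R - (l + 1))) (√(q 0) * z) =
        tlN e R m q (k + 1) l (tl e R m q k (logV f R m q k)) (√(q 0) * z) := fun z => by
      rw [hk', tlN_shift]
    have eL : ∀ z, tlN e R m q (k + 1) l (fun u => logV f R m q (k + 1) u + G u) (√(q 0) * z) =
        tlN e R m q (R - l) l (logV f R m q (R - l)) (√(q 0) * z) +
          c * tlN e R m q (R - l) l (fun u => grd f f1 R m q (R - l) u ^ 2) (√(q 0) * z) := fun z => by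
      rw [hk, tlN_add hS hex hL hG hB l (k + 1) (by omega), tlN_const_mul]
    have hg2 : Box 0 (D ^ 2) fun u => grd f f1 R m q (R - l) u ^ 2 := by
      rw [hk]
      exact ⟨(hgc.pow 2).measurable, fun u => ⟨sq_nonneg _, sq_le_sq' (abs_le.1 (hgb u)).1 (abs_le.1 (hgb u)).2⟩⟩
    have i1 := hint (logV_box (q := q) hS hB hex (show R - l ≤ R by omega)) l hl.le
    have i2 := (hint hg2 l hl.le).const_mul c
    have i3 := hint (logV_box (q := q) hS hB hex (show R - (l + 1) ≤ R by omega)) (l + 1) hl
    have h := integral_mono (i1.add i2) i3 fun z => by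
      simp only [Pi.add_apply]
      rw [← eL, eR]
      exact hmono z
    rw [integral_add' i1 i2, integral_const_mul] at h
    simp only [A, Gamma, e, grd] at h ⊢
    linarith
  have := sum_le_sum (s := range R) fun l hl => hstep l (mem_range.1 hl)
  rw [sum_range_sub A R, hA0] at this
  calc 1 / 2 * (∑ l ∈ range R, m (l + 1) * (q (l + 1) - q l) * Gamma e f1 R m q l)
      = ∑ l ∈ range R, m (l + 1) * (q (l + 1) - q l) / 2 * Gamma e f1 R m q l := by
        rw [mul_sum]; exact sum_congr rfl fun l _ => by ring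
    _ ≤ A R - Phi e R m q := this
    _ ≤ B - Phi e R m q := by linarith

omit hS hB in
/-- the spin term against the linear exponential -/
lemma spin_ge {s : ℕ → ℝ} (hs : ∀ l, l < R → s l ≤ s (l + 1)) :
    1 / 2 * (∑ l ∈ range R, m (l + 1) * (s (l + 1) - s l)) - log 2 ≤ Phi Real.cosh R m s := by
  have hA : Adm Real.cosh 1 1 1 :=
    { cont := Real.continuous_cosh, a_pos := one_pos, a_le := le_rfl, A_ge := le_rfl, D_nonneg := zero_le_one,
      lb := Real.one_le_cosh
      ub := fun y => by
        rw [one_mul, one_mul, ← Real.cosh_abs, Real.cosh_eq]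
        linarith [exp_le_exp.2 (show -|y| ≤ |y| by linarith [abs_nonneg y])] }
  set L : ℕ → ℝ := fun k => 1 / 2 * ∑ l ∈ Ico (R - k) R, m (l + 1) * (s (l + 1) - s l) with hL
  have key : ∀ k, k ≤ R → ∀ y, exp (y + L k) / 2 ≤ Vn Real.cosh R m s k y := by
    intro k
    induction k with
    | zero => intro _ y; simp [L, Vn, Real.cosh_eq]; linarith [exp_pos (-y)]
    | succ k ih =>
      intro hk y
      have hm := (hex.mem (show k < R by omega))
      obtain ⟨A', hV⟩ := Vn_adm hA hex s k (by omega)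
      set M := m (R - k)
      set d := s (R - k) - s (R - (k + 1))
      have hd : 0 ≤ d := by
        have := hs (R - (k + 1)) (by omega)
        rw [show R - (k + 1) + 1 = R - k by omega] at this
        exact sub_nonneg.2 this
      have hVi : Integrable (fun z => Vn Real.cosh R m s k (y + √d * z) ^ M) (gaussianReal 0 1) :=
        (hV.rpow hm.1.le hm.2).eg.int _ y
      have hrec : L (k + 1) = L k + M * d / 2 := by
        rw [hL]
        simp only
        rw [sum_eq_sum_Ico_succ_bot (show R - (k + 1) < R by omega), show R - (k + 1) + 1 = R - k by omega]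
        ring
      have hle : ∀ z, exp (M * (y + L k - log 2)) * exp (M * √d * z) ≤
          Vn Real.cosh R m s k (y + √d * z) ^ M := fun z => by
        refine le_trans (le_of_eq ?_) (rpow_le_rpow (div_nonneg (exp_pos _).le two_pos.le)
          (ih (by omega) (y + √d * z)) hm.1.le)
        rw [← exp_add, rpow_def_of_pos (div_pos (exp_pos _) two_pos), log_div (exp_pos _).ne' two_ne_zero, log_exp]
        ring_nf
      have h1 := integral_mono_of_nonneg (Filter.Eventually.of_forall fun z =>
        mul_nonneg (exp_pos _).le (exp_pos _).le) hVi (Filter.Eventually.of_forall hle)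
      rw [integral_const_mul, mgf_std, ← exp_add] at h1
      refine le_trans (le_of_eq ?_) (rpow_le_rpow (exp_pos _).le h1 (one_div_nonneg.2 hm.1.le))
      have e2 : ∀ u : ℝ, exp u / 2 = exp (u - log 2) := fun u => by rw [exp_sub, exp_log two_pos]
      rw [← exp_mul, hrec, e2]
      congr 1
      rw [mul_pow, Real.sq_sqrt hd]
      simp only [M] at hm ⊢
      field_simp [hm.1.ne']
      ring
  obtain ⟨A', hV⟩ := Vn_adm hA hex s R le_rfl
  have hlog : ∀ y, y + L R - log 2 ≤ log (Vn Real.cosh R m s R y) := fun y => by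
    have h := log_le_log (div_pos (exp_pos _) two_pos) (key R le_rfl y)
    rwa [log_div (exp_pos _).ne' two_ne_zero, log_exp] at h
  have hint : Integrable (fun z => log (Vn Real.cosh R m s R (√(s 0) * z))) (gaussianReal 0 1) := by
    refine ((Br.integrable_exp_abs (√(s 0))).const_mul A').mono'
      ((hV.cont.log fun y => (lt_of_lt_of_le one_pos (hV.lb y)).ne').comp (by fun_prop)).aestronglyMeasurable
      (Filter.Eventually.of_forall fun z => ?_)
    have h1 := lt_of_lt_of_le one_pos (hV.lb (√(s 0) * z))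
    rw [Real.norm_eq_abs, abs_of_nonneg (log_nonneg (hV.lb _))]
    refine (log_le_sub_one_of_pos h1).trans ?_
    have h2 := hV.ub (√(s 0) * z)
    rw [one_mul, abs_mul, abs_of_nonneg (Real.sqrt_nonneg _)] at h2
    linarith
  have hid1 : Integrable (fun z : ℝ => √(s 0) * z) (gaussianReal 0 1) :=
    ((memLp_id_gaussianReal 1).integrable le_rfl).const_mul _
  have hid : Integrable (fun z => √(s 0) * z + (L R - log 2)) (gaussianReal 0 1) :=
    hid1.add (integrable_const _)
  have h := integral_mono hid hint fun z => by linarith [hlog (√(s 0) * z)]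
  rw [integral_add hid1 (integrable_const _),
    integral_const_mul] at h
  simp only [L, Nat.sub_self, ← range_eq_Ico, integral_id_gaussianReal, mul_zero, zero_add, integral_const,
    probReal_univ, one_smul] at h
  exact h

end Bd0

/-- a lower bound of the values, free of the derivatives and of the depth -/
noncomputable def bddK (B α : ℝ) : ℝ := 3 * α * B + log 2

variable {f f1 f2 f3 : ℝ → ℝ} {B D : ℝ}

theorem values_ge (hS : Sm f f1 f2 f3 B D) (hB : ∀ x, f x ≤ B) {α : ℝ} (hα : 0 ≤ α) {v : ℝ}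
    (hv : v ∈ Parisi.parisiValues (fun y => exp (f y)) α) : -(bddK B α) ≤ v := by
  obtain ⟨R, m, q, hR, hok, hq, hq0, hqR, rfl⟩ := exists_fval hS hB hα hv
  have ok := hok (Ω := Bool) (fun _ => 1) fun _ => one_pos
  have hex : Ex R m := Ex.of_ok ok
  have hde : deriv f = f1 := funext fun x => (hS.d0 x).deriv
  set e := fun y => exp (f y)
  set Γ := fun l => Gamma e f1 R m q l
  have hqp : Prof R q 1 := ⟨hq0, fun l _ => hq (Nat.le_succ l), hqR.le⟩
  have hg : ∀ l ≤ R, 0 ≤ Γ l ∧ Γ l ≤ D ^ 2 ∧ (l < R → Γ l ≤ Γ (l + 1)) := fun l hl =>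
    gamma_mono (adm_exp hS) hex hqp (continuous_iff_continuousAt.2 fun x => (hS.d1 x).continuousAt) hS.b1 hl
  have hΓ : ∀ i j, i ≤ j → j < R → Γ i ≤ Γ j := by
    intro i j hij
    induction hij with
    | refl => exact fun _ => le_rfl
    | @step n _ ih => exact fun hn => (ih (by omega)).trans ((hg n (by omega)).2.2 (by omega))
  have hdm : ∀ l, l < R → 0 ≤ m (l + 1) - Bd0.mm m l := fun l hl => by
    unfold Bd0.mm
    split_ifs with h
    · linarith [hex.pos (l + 1) (by omega) (by omega)]
    · linarith [hex.mono l (by omega) hl]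
  have hsp := Bd0.spin_ge hex (s := fun l => α * Γ l)
    fun l hl => mul_le_mul_of_nonneg_left ((hg l hl.le).2.2 hl) hα
  rw [Bd0.abel m (fun l => α * Γ l) R] at hsp
  have hmR : Bd0.mm m R = 1 := by rw [Bd0.mm, if_neg (by omega), ok.top]
  have hT := Bd0.parts_le (Γ := Γ) hdm (fun l _ => hq (Nat.le_succ l)) hΓ R le_rfl
  have hgain := Bd0.gain_sum hS hB hex hq
  have hΦ : -B ≤ Phi e R m q := by
    have h := ((Bd0.logV_box (q := q) hS hB hex le_rfl).avg (q 0)).2 0
    simpa [Phi, Bd0.logV] using h.1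
  have hFv : Fval α f R m q = α * Phi e R m q + Phi Real.cosh R m (fun l => α * Γ l) -
      α / 2 * (Γ R + ∑ l ∈ range R, (Bd0.mm m l - m (l + 1)) * (Γ l * q l)) := by
    rw [Fval, hde]
    rfl
  have hsum : ∑ l ∈ range R, (Bd0.mm m l - m (l + 1)) * (α * Γ l) - α * ∑ l ∈ range R,
      (Bd0.mm m l - m (l + 1)) * (Γ l * q l) =
        -(α * ∑ l ∈ range R, (m (l + 1) - Bd0.mm m l) * Γ l * (q R - q l)) := by
    rw [mul_sum, mul_sum, ← sum_sub_distrib, ← sum_neg_distrib, hqR]
    exact sum_congr rfl fun l _ => by ring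
  rw [hmR] at hsp
  simp only [bddK]
  rw [hFv]
  nlinarith [mul_le_mul_of_nonneg_left hT hα, mul_le_mul_of_nonneg_left hgain hα,
    mul_le_mul_of_nonneg_left hΦ hα]

end Vale.Agent.P157.Par
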