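import Vale.Agent.P157.Par.Borel.Ident
import Vale.Agent.P157.Par.Borel.Bdd
import Vale.Agent.P157.Par.Limit

/-! The Parisi lower bound for every bounded measurable potential, and the formula without moments. -/

open MeasureTheory ProbabilityTheory Real Filter
open scoped Topology

namespace Vale.Agent.P157.Par.Borel

open Parisi Br

variable {U f : ℝ → ℝ} {B c α : ℝ}

lemma wt_exp (hf : Measurable f) (hb : ∀ x, |f x| ≤ B) : Wt (fun x => exp (f x)) B :=
  ⟨hf.exp, fun x => exp_le_exp.2 (abs_le.1 (hb x)).1, fun x => exp_le_exp.2 (abs_le.1 (hb x)).2⟩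

/-- the regularised potential -/
noncomputable def regF (c : ℝ) (f : ℝ → ℝ) (y : ℝ) : ℝ := log (regU c (fun x => exp (f x)) y)

lemma Wt.reg_pos (hU : Wt U B) (c y : ℝ) : 0 < regU c U y := hU.smooth_pos _ _

lemma exp_regF (hf : Measurable f) (hb : ∀ x, |f x| ≤ B) (c : ℝ) :
    (fun y => exp (regF c f y)) = regU c (fun x => exp (f x)) :=
  funext fun y => exp_log ((wt_exp hf hb).reg_pos c y)

lemma valuesB_nonempty (U : ℝ → ℝ) (α : ℝ) : (parisiValuesB U α).Nonempty :=
  ⟨_, 0, Fin.elim0, fun _ => 0, fun i => i.elim0, fun i => i.elim0, monotone_const,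
    fun _ => ⟨le_rfl, zero_lt_one⟩, rfl⟩

/-- for `c` close to `1` every Borel trial is the image of a trial of the regularised weight -/
lemma exists_above (hU : Wt U B) (hα : 0 ≤ α) {v : ℝ} (hv : v ∈ parisiValuesB U α) :
    ∃ G : ℝ, ∀ᶠ c in 𝓝[Set.Iio 1] 1, ∃ w ∈ parisiValues (regU c U) α, w ≤ v + (1 - c) * G := by
  obtain ⟨r, m, q, hm, hm01, hq, hq01, rfl⟩ := hv
  refine ⟨α * gamB U m q (Fin.last r) / 2, ?_⟩
  have hlt : max (q (Fin.last r)) 0 < 1 := max_lt (hq01 _).2 one_pos
  filter_upwards [Ioo_mem_nhdsLT hlt] with c hc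
  have hc0 : 0 < c := (le_max_right _ _).trans_lt hc.1
  have hle : ∀ l, q l / c ≤ 1 := fun l => by
    rw [div_le_one hc0]
    exact (hq (Fin.le_last l)).trans ((le_max_left _ _).trans hc.1.le)
  have hcq : (fun l => c * (q l / c)) = q := funext fun l => mul_div_cancel₀ _ hc0.ne'
  refine ⟨parisiValue (regU c U) α r m fun l => q l / c, ⟨r, m, _, hm, hm01,
    fun i j h => div_le_div_of_nonneg_right (hq h) hc0.le,
    fun l => ⟨div_nonneg (hq01 l).1 hc0.le, hle l⟩, rfl⟩, ?_⟩
  have h := (parisiValue_reg_bounds hU hc0 hc.2 hα hm01 (q := fun l => q l / c) (hle _)).2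
  rw [hcq] at h
  linarith

/-- every trial of the regularised weight lies above a Borel trial -/
lemma exists_below (hU : Wt U B) (hc0 : 0 < c) (hc1 : c < 1) (hα : 0 ≤ α) {w : ℝ}
    (hw : w ∈ parisiValues (regU c U) α) : ∃ v ∈ parisiValuesB U α, v ≤ w := by
  obtain ⟨r, m, q, hm, hm01, hq, hq01, rfl⟩ := hw
  exact ⟨_, ⟨r, m, fun l => c * q l, hm, hm01, fun i j h => mul_le_mul_of_nonneg_left (hq h) hc0.le,
    fun l => ⟨mul_nonneg hc0.le (hq01 l).1, (mul_le_of_le_one_right hc0.le (hq01 l).2).trans_lt hc1⟩, rfl⟩,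
    (parisiValue_reg_bounds hU hc0 hc1 hα hm01 (hq01 _).2).1⟩

lemma values_reg_ge (hU : Wt U B) (hc1 : c < 1) (hα : 0 ≤ α) {w : ℝ}
    (hw : w ∈ parisiValues (regU c U) α) : -(bddK B α) ≤ w := by
  obtain ⟨f1, f2, f3, D, hS, hB⟩ := hU.sm hc1
  refine values_ge hS hB hα ?_
  rwa [show (fun y => exp (log (regU c U y))) = regU c U from funext fun y => exp_log (hU.reg_pos c y)]

lemma valuesB_bddBelow (hU : Wt U B) (hα : 0 ≤ α) : BddBelow (parisiValuesB U α) := by
  refine ⟨-(bddK B α), fun v hv => ?_⟩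
  obtain ⟨G, hG⟩ := exists_above hU hα hv
  have hlim : Tendsto (fun c => v + (1 - c) * G) (𝓝[Set.Iio 1] 1) (𝓝 v) := by
    have h : Continuous fun c => v + (1 - c) * G := by fun_prop
    simpa using (h.tendsto 1).mono_left nhdsWithin_le_nhds
  refine ge_of_tendsto hlim ?_
  filter_upwards [hG, self_mem_nhdsWithin] with c hc hc1
  obtain ⟨w, hw, hle⟩ := hc
  exact (values_reg_ge hU hc1 hα hw).trans hle

lemma sInf_le_reg (hU : Wt U B) (hc0 : 0 < c) (hc1 : c < 1) (hα : 0 ≤ α) :
    sInf (parisiValuesB U α) ≤ sInf (parisiValues (regU c U) α) :=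
  le_csInf (values_nonempty _ _) fun w hw => by
    obtain ⟨v, hv, hle⟩ := exists_below hU hc0 hc1 hα hw
    exact (csInf_le (valuesB_bddBelow hU hα) hv).trans hle

/-- the pressure follows the regularisation -/
lemma pressure_reg_close (hf : Measurable f) (hb : ∀ x, |f x| ≤ B) (hα : 0 ≤ α) {ε : ℝ} (hε : 0 < ε) :
    ∀ᶠ c in 𝓝[Set.Iio 1] 1, ∀ N : ℕ, 1 ≤ N →
      |pressure (isingUniform N) f ⌊α * N⌋₊ - pressure (isingUniform N) (regF c f) ⌊α * N⌋₊| ≤ ε := by
  have hU := wt_exp hf hb
  have h := Metric.tendsto_nhds.1 hU.reg_tendsto (ε / (α * exp B + 1)) (by positivity)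
  filter_upwards [h, self_mem_nhdsWithin] with c hc hc1 N hN
  obtain ⟨f1, f2, f3, D, hS, hB⟩ := hU.sm hc1
  have hgb : ∀ x, |regF c f x| ≤ B := fun x => abs_le.2 ⟨hS.lb x, hB x⟩
  have hgm : Measurable (regF c f) := hS.sd.cont0.measurable
  refine (abs_pressure_close (by omega) hf hgm hb hgb).trans ?_
  rw [Real.dist_eq, sub_zero, abs_of_nonneg (integral_nonneg fun y => abs_nonneg _)] at hc
  have e : ∀ y, |exp (f y) - exp (regF c f y)| = |regU c (fun x => exp (f x)) y - exp (f y)| := fun y => by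
    rw [congrFun (exp_regF hf hb c) y, abs_sub_comm]
  simp only [e]
  have hMN : (⌊α * N⌋₊ : ℝ) / N ≤ α := by
    rw [div_le_iff₀ (by exact_mod_cast hN)]; exact Nat.floor_le (by positivity)
  refine (mul_le_mul hMN (mul_le_mul_of_nonneg_left hc.le (exp_pos _).le) (by positivity) hα).trans ?_
  rw [← mul_assoc, mul_div_assoc', div_le_iff₀ (by positivity)]
  nlinarith

/-- **Lower bound for every bounded measurable potential** -/
theorem lower_bound_borel (hf : Measurable f) (hb : ∀ x, |f x| ≤ B) (hα : 0 < α) :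
    ∀ ε > 0, ∀ᶠ N : ℕ in atTop, sInf (parisiValuesB (fun y => exp (f y)) α) - ε ≤
      pressure (isingUniform N) f ⌊α * N⌋₊ := by
  intro ε hε
  have hU := wt_exp hf hb
  obtain ⟨c, hc, hc01⟩ := ((pressure_reg_close hf hb hα.le (show 0 < ε / 2 by positivity)).and
    (Ioo_mem_nhdsLT (show (0:ℝ) < 1 by norm_num))).exists
  obtain ⟨f1, f2, f3, D, hS, hB⟩ := hU.sm hc01.2
  have hS' : Sm (regF c f) f1 f2 f3 B D := hS
  filter_upwards [lower_bound hS' hB hα (ε / 2) (by positivity), eventually_ge_atTop 1] with N hlow hN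
  rw [exp_regF hf hb c] at hlow
  have h1 := (abs_le.1 (hc N hN)).1
  linarith [sInf_le_reg hU hc01.1 hc01.2 hα.le]

/-- the formula passes from the regularisations to the potential -/
theorem tendsto_borel (hf : Measurable f) (hb : ∀ x, |f x| ≤ B) (hα : 0 < α)
    (hreg : ∀ c ∈ Set.Ioo (0:ℝ) 1, Tendsto (fun N : ℕ => pressure (isingUniform N) (regF c f) ⌊α * N⌋₊) atTop
      (𝓝 (sInf (parisiValues (fun y => exp (regF c f y)) α)))) :
    Tendsto (fun N : ℕ => pressure (isingUniform N) f ⌊α * N⌋₊) atTop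
      (𝓝 (sInf (parisiValuesB (fun y => exp (f y)) α))) := by
  have hU := wt_exp hf hb
  set s := sInf (parisiValuesB (fun y => exp (f y)) α)
  rw [Metric.tendsto_nhds]
  intro ε hε
  obtain ⟨v, hv, hvs⟩ : ∃ v ∈ parisiValuesB (fun y => exp (f y)) α, v < s + ε / 4 :=
    exists_lt_of_csInf_lt (valuesB_nonempty _ _) (by linarith)
  obtain ⟨G, hG⟩ := exists_above hU hα.le hv
  have hsmall : ∀ᶠ c in 𝓝[Set.Iio 1] 1, (1 - c) * G < ε / 4 := by
    have h : Continuous fun c => (1 - c) * G := by fun_prop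
    exact ((h.tendsto 1).mono_left nhdsWithin_le_nhds).eventually
      (Iio_mem_nhds (by simp only [sub_self, zero_mul]; linarith))
  obtain ⟨c, ⟨⟨hc, w, hw, hwle⟩, hcG⟩, hc01⟩ :=
    ((((pressure_reg_close hf hb hα.le (show 0 < ε / 4 by positivity)).and hG).and hsmall).and
      (Ioo_mem_nhdsLT (show (0:ℝ) < 1 by norm_num))).exists
  have hw' : sInf (parisiValues (fun y => exp (regF c f y)) α) ≤ w := by
    rw [exp_regF hf hb c]
    exact csInf_le ⟨-(bddK B α), fun x hx => values_reg_ge hU hc01.2 hα.le hx⟩ hw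
  filter_upwards [(hreg c hc01).eventually (Iio_mem_nhds (lt_add_of_pos_right _ (show 0 < ε / 4 by positivity))),
    lower_bound_borel hf hb hα (ε / 2) (by positivity), eventually_ge_atTop 1] with N hN hlow h1
  have h2 := (abs_le.1 (hc N h1)).2
  rw [Real.dist_eq, abs_lt]
  constructor <;> linarith

/-! ### the positive-definite class without moments -/

section pd

variable {ν : Measure ℝ} [IsFiniteMeasure ν]

/-- **The formula for every finite spectral measure** -/
theorem pd_limit_borel {c₀ : ℝ} (hc : ν.real Set.univ < c₀) (hα : 0 < α) :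
    Tendsto (fun N : ℕ => pressure (isingUniform N) (PD.pot ν c₀) ⌊α * N⌋₊) atTop
      (𝓝 (sInf (parisiValuesB (fun y => exp (PD.pot ν c₀ y)) α))) := by
  refine tendsto_borel (PD.continuous_pot hc).measurable (PD.abs_pot_le hc) hα fun c hc01 => ?_
  set a := 1 - c
  have ha : 0 < a := sub_pos.2 hc01.2
  set μ : Measure ℝ := ν.withDensity fun t => ENNReal.ofReal (exp (-(a * t ^ 2) / 2))
  have hd1 : ∀ t : ℝ, exp (-(a * t ^ 2) / 2) ≤ 1 := fun t => exp_le_one_iff.2 (by nlinarith [sq_nonneg t])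
  have hμle : μ ≤ ν := by
    refine (withDensity_mono (Eventually.of_forall fun t => ?_)).trans_eq (withDensity_one (μ := ν))
    simpa using hd1 t
  have : IsFiniteMeasure μ := isFiniteMeasure_of_le ν hμle
  set ν' := μ.map fun t => √c * t
  have hmass : ν'.real Set.univ < c₀ := by
    rw [map_measureReal_apply (by fun_prop) MeasurableSet.univ, Set.preimage_univ]
    refine lt_of_le_of_lt ?_ hc
    simp only [measureReal_def]
    exact ENNReal.toReal_mono (measure_ne_top _ _) (hμle _)
  have hint : ∀ {F : ℝ → ℝ}, ∫ t, F t ∂μ = ∫ t, exp (-(a * t ^ 2) / 2) * F t ∂ν := fun {F} => by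
    rw [integral_withDensity_eq_integral_toReal_smul (by fun_prop) (Eventually.of_forall fun t => ENNReal.ofReal_lt_top)]
    exact integral_congr_ae (Eventually.of_forall fun t => by simp [ENNReal.toReal_ofReal (exp_pos _).le])
  have h3 : Integrable (fun t : ℝ => |t| ^ 3) ν' := by
    rw [integrable_map_measure (by fun_prop) (by fun_prop),
      integrable_withDensity_iff (by fun_prop) (Eventually.of_forall fun t => ENNReal.ofReal_lt_top)]
    refine Integrable.of_bound (by fun_prop) (√c ^ 3 * (2 / a) ^ 2 * 24) (Eventually.of_forall fun t => ?_)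
    rw [Real.norm_eq_abs, Function.comp_apply, ENNReal.toReal_ofReal (exp_pos _).le, abs_mul, abs_exp,
      abs_pow, abs_abs, abs_mul, abs_of_nonneg (sqrt_nonneg c), mul_pow, mul_assoc, mul_assoc]
    refine mul_le_mul_of_nonneg_left ?_ (by positivity)
    have h2 : |t| ^ 2 = t ^ 2 := sq_abs t
    have hq := quadratic_le_exp_of_nonneg (show 0 ≤ a * t ^ 2 / 2 by positivity)
    rw [neg_div, exp_neg, ← div_eq_mul_inv, div_le_iff₀ (exp_pos _)]
    have hden : (2 / a) ^ 2 * 24 * exp (a * t ^ 2 / 2) ≥ (2 / a) ^ 2 * 24 * (1 + (a * t ^ 2 / 2) + (a * t ^ 2 / 2) ^ 2 / 2) :=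
      mul_le_mul_of_nonneg_left hq (by positivity)
    have e : (2 / a) ^ 2 * 24 * (1 + (a * t ^ 2 / 2) + (a * t ^ 2 / 2) ^ 2 / 2) =
        96 / a ^ 2 + 48 / a * t ^ 2 + 12 * (t ^ 2) ^ 2 := by field_simp; ring
    rw [e] at hden
    have ha1 : a ≤ 1 := by simp only [a]; linarith [hc01.1]
    have h96 : 96 ≤ 96 / a ^ 2 := le_div_self (by norm_num) (by positivity) (pow_le_one₀ ha.le ha1)
    have h48 : 0 ≤ 48 / a * t ^ 2 := by positivity
    nlinarith [abs_nonneg t, sq_nonneg (|t| - 1), sq_nonneg (|t| ^ 2 - |t|), hden, h96, h48]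
  have e : regF c (PD.pot ν c₀) = PD.pot ν' c₀ := by
    funext y
    simp only [regF, PD.pot]
    congr 1
    have hpos : ∀ u, 0 < c₀ - PD.ft ν u := PD.sub_ft_pos hc
    simp only [regU, Parisi.smooth, exp_log (hpos _)]
    have hi : Integrable (fun p : ℝ × ℝ => Real.cos (p.2 * (√c * y + √a * p.1))) ((gaussianReal 0 1).prod ν) :=
      Integrable.of_bound (Continuous.aestronglyMeasurable (by fun_prop)) 1
        (Eventually.of_forall fun p => by rw [Real.norm_eq_abs]; exact abs_cos_le_one _)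
    have hfi : Integrable (fun z => PD.ft ν (√c * y + √a * z)) (gaussianReal 0 1) :=
      Integrable.of_bound ((PD.continuous_ft).comp (by fun_prop)).aestronglyMeasurable (ν.real Set.univ)
        (Eventually.of_forall fun z => by rw [Real.norm_eq_abs]; exact PD.abs_ft _)
    rw [show 1 - c = a from rfl, integral_sub (integrable_const _) hfi]
    simp only [integral_const, probReal_univ, one_smul, PD.ft]
    congr 1
    rw [integral_integral_swap hi, integral_map (by fun_prop) (Continuous.aestronglyMeasurable (by fun_prop)), hint]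
    refine integral_congr_ae (Eventually.of_forall fun t => ?_)
    show ∫ z, Real.cos (t * (√c * y + √a * z)) ∂gaussianReal 0 1 = _
    have h0 := integral_cos_shift (t * (√c * y)) (t * √a)
    rw [mul_pow, sq_sqrt ha.le] at h0
    simp only [mul_add, ← mul_assoc] at h0 ⊢
    rw [h0]
    ring_nf
  have := Par.pd_limit hmass h3 hα
  rwa [← e] at this
where
  integral_cos_shift (x b : ℝ) :
      ∫ z, Real.cos (x + b * z) ∂gaussianReal 0 1 = exp (-(b ^ 2) / 2) * Real.cos x := by
    have hi : Integrable (fun z : ℝ => Complex.exp ((b:ℂ) * z * Complex.I) * Complex.exp ((x:ℂ) * Complex.I))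
        (gaussianReal 0 1) :=
      Integrable.of_bound (Continuous.aestronglyMeasurable (by fun_prop)) 1
        (Eventually.of_forall fun z => by simp [Complex.norm_exp])
    have h1 : ∫ z, Complex.exp ((b:ℂ) * z * Complex.I) * Complex.exp ((x:ℂ) * Complex.I) ∂gaussianReal 0 1 =
        (exp (-(b ^ 2) / 2) : ℝ) * Complex.exp ((x:ℂ) * Complex.I) := by
      rw [integral_mul_const, ← charFun_apply_real, charFun_gaussianReal]
      push_cast; congr 1; ring_nf
    have h2 := congrArg Complex.re h1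
    rw [show (∫ z, Complex.exp ((b:ℂ) * z * Complex.I) * Complex.exp ((x:ℂ) * Complex.I) ∂gaussianReal 0 1).re =
      RCLike.re (K := ℂ) (∫ z, Complex.exp ((b:ℂ) * z * Complex.I) * Complex.exp ((x:ℂ) * Complex.I) ∂gaussianReal 0 1)
      from rfl, ← integral_re hi] at h2
    refine Eq.trans ?_ (h2.trans ?_)
    · refine integral_congr_ae (Eventually.of_forall fun z => ?_)
      show _ = (Complex.exp _ * Complex.exp _).re
      rw [← Complex.exp_add, Complex.exp_re]
      simp [add_comm x]
    · rw [Complex.re_ofReal_mul, Complex.exp_re]; simp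

end pd

/-! ### smooth potentials -/

/-- for a smooth potential the Borel trials are trials of the smooth functional -/
lemma valuesB_subset {f1 f2 f3 : ℝ → ℝ} {D : ℝ} (hS : Sm f f1 f2 f3 B D) (hB : ∀ x, f x ≤ B) :
    parisiValuesB (fun y => exp (f y)) α ⊆ parisiValues (fun y => exp (f y)) α := by
  rintro v ⟨r, m, q, hm, hm01, hq, hq01, rfl⟩
  refine ⟨r, m, q, hm, hm01, hq, fun l => ⟨(hq01 l).1, (hq01 l).2.le⟩, ?_⟩
  set U := fun y => exp (f y)
  set W1 := fun y => exp (f y) * f1 y
  have hdU : deriv U = W1 := funext fun x => ((hS.d0 x).exp).deriv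
  have hc0 : Continuous U := continuous_exp.comp hS.sd.cont0
  have hW1c : Continuous W1 := hc0.mul hS.sd.cont1
  have hC : ∀ y, |W1 y| ≤ exp B * D := fun y => by
    rw [abs_mul, abs_exp]
    exact mul_le_mul (exp_le_exp.2 (hB y)) (hS.b1 y) (abs_nonneg _) (exp_pos _).le
  set v := 1 - q (Fin.last r)
  have hd : deriv (smooth U v) = smooth (deriv U) v := funext fun y => by
    rw [hdU]
    refine HasDerivAt.deriv (hasDerivAt_integral_of_dominated_loc_of_deriv_le (F' := fun y z => W1 (y + √v * z))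
      (bound := fun _ => exp B * D) Filter.univ_mem
      (Eventually.of_forall fun y => (hc0.comp (by fun_prop)).aestronglyMeasurable) ?_
      (hW1c.comp (by fun_prop)).aestronglyMeasurable (Eventually.of_forall fun z a _ => hC _)
      (integrable_const _) (Eventually.of_forall fun z a _ => ?_)).2
    · exact Integrable.of_bound (hc0.comp (by fun_prop)).aestronglyMeasurable (exp B)
        (Eventually.of_forall fun z => by
          rw [Real.norm_eq_abs]; show |exp _| ≤ _; rw [abs_exp]; exact exp_le_exp.2 (hB _))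
    · exact ((hS.d0 _).exp).comp_add_const a (√v * z)
  have hg : gamB U m q = gam U m q := funext fun l => by simp only [gamB, gam]; rw [hd]
  simp only [parisiValueB, parisiValue, hg]

/-- a limit equal to the smooth infimum is the Borel infimum -/
theorem tendsto_sInfB {f1 f2 f3 : ℝ → ℝ} {D : ℝ} (hS : Sm f f1 f2 f3 B D) (hB : ∀ x, f x ≤ B) (hα : 0 < α)
    (h : Tendsto (fun N : ℕ => pressure (isingUniform N) f ⌊α * N⌋₊) atTop
      (𝓝 (sInf (parisiValues (fun y => exp (f y)) α)))) :
    Tendsto (fun N : ℕ => pressure (isingUniform N) f ⌊α * N⌋₊) atTop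
      (𝓝 (sInf (parisiValuesB (fun y => exp (f y)) α))) := by
  have hb : ∀ x, |f x| ≤ B := fun x => abs_le.2 ⟨hS.lb x, hB x⟩
  have hm : Measurable f := hS.sd.cont0.measurable
  have h1 : sInf (parisiValues (fun y => exp (f y)) α) ≤ sInf (parisiValuesB (fun y => exp (f y)) α) :=
    le_csInf (valuesB_nonempty _ _) fun v hv => csInf_le (values_bddBelow hS hB hα.le) (valuesB_subset hS hB hv)
  have h2 : sInf (parisiValuesB (fun y => exp (f y)) α) ≤ sInf (parisiValues (fun y => exp (f y)) α) := by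
    refine le_of_forall_pos_le_add fun ε hε => ?_
    have := ge_of_tendsto h ((lower_bound_borel hm hb hα ε hε))
    linarith
  rwa [le_antisymm h2 h1]

end Vale.Agent.P157.Par.Borel
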