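import Vale.Agent.P157.Par.Basics
import Vale.Agent.P157.Basic

/-! On the cube the pressure of bounded measurable potentials is Lipschitz in `L¹` of the weight. -/

open MeasureTheory ProbabilityTheory Real
open scoped ENNReal RealInnerProductSpace
open Vale.Agent.P150 (gauss dot)
open Vale.Agent.P157.Lim (wt xv sgn)

namespace Vale.Agent.P157.Par.Borel

variable {f h : ℝ → ℝ} {B : ℝ} {N M : ℕ}

/-- log partition function with configuration weights -/
noncomputable def lz (w : (Fin N → Bool) → ℝ) (f : ℝ → ℝ) (g : Fin M → Fin N → ℝ) : ℝ :=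
  log (∑ σ, w σ * ham f g σ)

lemma sum_ham_pos {w : (Fin N → Bool) → ℝ} (hw : ∀ σ, 0 < w σ) (g : Fin M → Fin N → ℝ) :
    0 < ∑ σ, w σ * ham f g σ :=
  Finset.sum_pos (fun σ _ => mul_pos (hw σ) (ham_pos f g σ)) Finset.univ_nonempty

lemma measurable_lz (hf : Measurable f) (w : (Fin N → Bool) → ℝ) :
    Measurable fun g : Fin M → Fin N → ℝ => lz w f g := by
  refine Measurable.log (Finset.measurable_sum _ fun σ _ => ?_)
  unfold ham dot
  fun_prop

lemma abs_lz_le (hb : ∀ x, |f x| ≤ B) {w : (Fin N → Bool) → ℝ} (hw : ∀ σ, 0 < w σ) (g : Fin M → Fin N → ℝ) :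
    |lz w f g| ≤ |log (∑ σ, w σ)| + M * B := by
  have hS : 0 < ∑ σ, w σ := Finset.sum_pos (fun σ _ => hw σ) Finset.univ_nonempty
  have h : ∀ σ, |∑ a, f (dot (xv N σ) (g a))| ≤ M * B := fun σ => (Finset.abs_sum_le_sum_abs _ _).trans
    ((Finset.sum_le_sum fun a _ => hb _).trans_eq (by simp))
  have hlo : (∑ σ, w σ) * exp (-(M * B)) ≤ ∑ σ, w σ * ham f g σ := by
    rw [Finset.sum_mul]
    exact Finset.sum_le_sum fun σ _ => mul_le_mul_of_nonneg_left (exp_le_exp.2 (abs_le.1 (h σ)).1) (hw σ).le
  have hup : ∑ σ, w σ * ham f g σ ≤ (∑ σ, w σ) * exp (M * B) := by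
    rw [Finset.sum_mul]
    exact Finset.sum_le_sum fun σ _ => mul_le_mul_of_nonneg_left (exp_le_exp.2 (abs_le.1 (h σ)).2) (hw σ).le
  have h1 := log_le_log (mul_pos hS (exp_pos _)) hlo
  have h2 := log_le_log (sum_ham_pos hw g) hup
  rw [log_mul hS.ne' (exp_pos _).ne', log_exp] at h1 h2
  rw [lz, abs_le]
  constructor <;> linarith [neg_abs_le (log (∑ σ, w σ)), le_abs_self (log (∑ σ, w σ))]

lemma integrable_lz (hf : Measurable f) (hb : ∀ x, |f x| ≤ B) {w : (Fin N → Bool) → ℝ} (hw : ∀ σ, 0 < w σ) :
    Integrable (fun g : Fin M → Fin N → ℝ => lz w f g) (pats N M) := by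
  have : IsProbabilityMeasure (pats N M) := by unfold pats; infer_instance
  exact Integrable.of_bound (measurable_lz hf w).aestronglyMeasurable _
    (Filter.Eventually.of_forall fun g => by rw [Real.norm_eq_abs]; exact abs_lz_le hb hw g)

/-- the pressure of a bounded measurable potential on the cube -/
lemma pressure_eq (hf : Measurable f) :
    pressure (isingUniform N) f M = (∫ g, lz (wt N) f g ∂pats N M) / N := by
  have hpart : ∀ g : Fin M → Fin N → ℝ,
      partition (isingUniform N) f (fun a => WithLp.toLp 2 (g a)) = ∑ σ, wt N σ * ham f g σ := by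
    intro g
    set ν : Measure Bool := (2 : ℝ≥0∞)⁻¹ • Measure.count with hν
    have hmapν : ν.map sgn = (2 : ℝ≥0∞)⁻¹ • (Measure.dirac (-1 : ℝ) + Measure.dirac 1) := by
      have : (Measure.count : Measure Bool) = Measure.dirac false + Measure.dirac true := by
        ext s hs
        cases' Bool.dichotomy true with h h
        all_goals
          rw [Measure.count, Measure.sum_apply _ hs, tsum_fintype, Fintype.sum_bool,
            Measure.add_apply, add_comm]
      rw [hν, this, Measure.map_smul, Measure.map_add _ _ (measurable_of_finite _),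
        Measure.map_dirac' (measurable_of_finite _), Measure.map_dirac' (measurable_of_finite _)]
      simp [sgn]
    have hfin : IsFiniteMeasure ν := ⟨by simp [hν, ENNReal.mul_lt_top_iff]⟩
    have hiso : isingUniform N = (Measure.pi fun _ : Fin N => ν).map
        (fun σ => WithLp.toLp 2 (fun i => sgn (σ i))) := by
      rw [isingUniform, ← hmapν, ← Measure.pi_map_pi (fun _ => (measurable_of_finite _).aemeasurable),
        Measure.map_map (by fun_prop) (measurable_of_finite _)]
      rfl
    rw [partition, hiso, integral_map (measurable_of_finite _).aemeasurable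
      (Measurable.aestronglyMeasurable (by fun_prop)), integral_fintype (Integrable.of_finite)]
    refine Finset.sum_congr rfl fun σ _ => ?_
    congr 1
    · simp [wt, measureReal_def, Measure.pi_singleton, hν]
    · refine congrArg Real.exp (Finset.sum_congr rfl fun a _ => congrArg f ?_)
      simp only [PiLp.inner_apply, RCLike.inner_apply, conj_trivial, dot, xv, Finset.sum_div]
      exact Finset.sum_congr rfl fun i _ => by ring
  have hpat : patterns N M = (pats N M).map (fun g a => WithLp.toLp 2 (g a)) := by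
    rw [pats, Measure.pi_map_pi (f := fun _ => WithLp.toLp 2) (fun _ => Measurable.aemeasurable (by fun_prop))]
    simp only [patterns, gauss, map_pi_eq_stdGaussian]
  rw [pressure, hpat, integral_map (Measurable.aemeasurable (by fun_prop)) ?_, one_div_mul_eq_div]
  · simp only [hpart, lz]
  · have := (Vale.Agent.P157.carried_ising N).prob
    exact (Real.measurable_log.comp (measurable_partition hf)).aestronglyMeasurable

lemma integral_dot {F : ℝ → ℝ} (hF : Measurable F) (u : Fin N → ℝ) (hu : dot u u = 1) :
    ∫ y, F (dot u y) ∂gauss (Fin N) = ∫ z, F z ∂gaussianReal 0 1 := by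
  have hn : ‖(WithLp.toLp 2 u : Vec N)‖ = 1 := by
    rw [norm_eq_sqrt_real_inner]
    simp only [PiLp.inner_apply, RCLike.inner_apply, conj_trivial]
    rw [show (∑ i, u i * u i) = 1 from hu, Real.sqrt_one]
  rw [← integral_stdGaussian_arg hF.aestronglyMeasurable (WithLp.toLp 2 u) hn, ← map_pi_eq_stdGaussian]
  rw [integral_map (φ := WithLp.toLp 2) (by fun_prop)
    (by exact (hF.comp (by fun_prop)).aestronglyMeasurable)]
  refine integral_congr_ae (Filter.Eventually.of_forall fun y => congrArg F ?_)
  simp only [PiLp.inner_apply, RCLike.inner_apply, conj_trivial, dot]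

/-- replacing the potential moves `E log Z` by at most `M e^B ‖e^f - e^h‖₁` -/
theorem lz_close (hN : 0 < N) (hf : Measurable f) (hh : Measurable h) (hfb : ∀ x, |f x| ≤ B)
    (hhb : ∀ x, |h x| ≤ B) : ∀ (M : ℕ) {w : (Fin N → Bool) → ℝ}, (∀ σ, 0 < w σ) →
    (∫ g, lz w f g ∂pats N M) - ∫ g, lz w h g ∂pats N M ≤
      M * (exp B * ∫ z, |exp (f z) - exp (h z)| ∂gaussianReal 0 1)
  | 0, w, _ => by simp [lz, ham]
  | M + 1, w, hw => by
    have : IsProbabilityMeasure (pats N M) := by unfold pats; infer_instance
    set d := ∫ z, |exp (f z) - exp (h z)| ∂gaussianReal 0 1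
    set W : (Fin N → ℝ) → (Fin N → Bool) → ℝ := fun y σ => w σ * exp (f (dot (xv N σ) y))
    have hW : ∀ y σ, 0 < W y σ := fun y σ => mul_pos (hw σ) (exp_pos _)
    have e1 : ∀ y (g : Fin M → Fin N → ℝ) (k : ℝ → ℝ),
        lz w k (ins 0 y g) = lz (fun σ => w σ * exp (k (dot (xv N σ) y))) k g := fun y g k => by
      simp only [lz, ham_ins]; exact congrArg log (Finset.sum_congr rfl fun σ _ => by ring)
    have mf := measurePreserving_ins (N := N) (M := M) 0
    have i1 : Integrable (fun p : (Fin N → ℝ) × (Fin M → Fin N → ℝ) => lz (W p.1) f p.2)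
        ((gauss (Fin N)).prod (pats N M)) :=
      (mf.integrable_comp_of_integrable (integrable_lz hf hfb hw)).congr
        (Filter.Eventually.of_forall fun p => e1 p.1 p.2 f)
    have i3 : Integrable (fun p : (Fin N → ℝ) × (Fin M → Fin N → ℝ) => lz w h (ins 0 p.1 p.2))
        ((gauss (Fin N)).prod (pats N M)) := mf.integrable_comp_of_integrable (integrable_lz hh hhb hw)
    set G : (Fin N → ℝ) × (Fin M → Fin N → ℝ) → ℝ := fun p => lz (W p.1) h p.2
    have i2 : Integrable G ((gauss (Fin N)).prod (pats N M)) := by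
      refine Integrable.of_bound ?_ (|log (∑ σ, w σ)| + B + M * B) (Filter.Eventually.of_forall fun p => ?_)
      · refine Measurable.aestronglyMeasurable ?_
        refine Measurable.log (Finset.measurable_sum _ fun σ _ => ?_)
        unfold W ham dot
        fun_prop
      · rw [Real.norm_eq_abs]
        refine (abs_lz_le hhb (hW p.1) p.2).trans (add_le_add ?_ le_rfl)
        have hS : 0 < ∑ σ, w σ := Finset.sum_pos (fun σ _ => hw σ) Finset.univ_nonempty
        have hWS : 0 < ∑ σ, W p.1 σ := Finset.sum_pos (fun σ _ => hW _ σ) Finset.univ_nonempty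
        have hlo : (∑ σ, w σ) * exp (-B) ≤ ∑ σ, W p.1 σ := by
          rw [Finset.sum_mul]
          exact Finset.sum_le_sum fun σ _ => mul_le_mul_of_nonneg_left (exp_le_exp.2 (abs_le.1 (hfb _)).1) (hw σ).le
        have hup : ∑ σ, W p.1 σ ≤ (∑ σ, w σ) * exp B := by
          rw [Finset.sum_mul]
          exact Finset.sum_le_sum fun σ _ => mul_le_mul_of_nonneg_left (exp_le_exp.2 (abs_le.1 (hfb _)).2) (hw σ).le
        have h1 := log_le_log (mul_pos hS (exp_pos _)) hlo
        have h2 := log_le_log hWS hup
        rw [log_mul hS.ne' (exp_pos _).ne', log_exp] at h1 h2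
        rw [abs_le]
        constructor <;> linarith [neg_abs_le (log (∑ σ, w σ)), le_abs_self (log (∑ σ, w σ))]
    have step1 : (∫ p, lz (W p.1) f p.2 ∂(gauss (Fin N)).prod (pats N M)) -
        ∫ p, G p ∂(gauss (Fin N)).prod (pats N M) ≤ M * (exp B * d) := by
      rw [← integral_sub i1 i2]
      have i12 : Integrable (fun p => lz (W p.1) f p.2 - G p) ((gauss (Fin N)).prod (pats N M)) := i1.sub i2
      rw [integral_prod _ i12]
      refine (integral_mono i12.integral_prod_left (integrable_const (M * (exp B * d))) fun y => ?_).trans_eq (by simp)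
      show ∫ g, lz (W y) f g - lz (W y) h g ∂pats N M ≤ _
      rw [integral_sub (integrable_lz hf hfb (hW y)) (integrable_lz hh hhb (hW y))]
      exact lz_close hN hf hh hfb hhb M (hW y)
    have step2 : (∫ p, G p ∂(gauss (Fin N)).prod (pats N M)) -
        ∫ p, lz w h (ins 0 p.1 p.2) ∂(gauss (Fin N)).prod (pats N M) ≤ exp B * d := by
      rw [← integral_sub i2 i3]
      have i23 : Integrable (fun p => G p - lz w h (ins 0 p.1 p.2)) ((gauss (Fin N)).prod (pats N M)) := i2.sub i3
      rw [integral_prod_symm _ i23]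
      refine (integral_mono_ae i23.integral_prod_right (integrable_const (exp B * d))
        (i23.prod_left_ae.mono fun g hg => ?_)).trans_eq (by simp)
      set P : (Fin N → Bool) → ℝ := fun σ => w σ * ham h g σ with hP
      have hP0 : ∀ σ, 0 < P σ := fun σ => mul_pos (hw σ) (ham_pos h g σ)
      set S := ∑ σ, P σ
      have hS : 0 < S := Finset.sum_pos (fun σ _ => hP0 σ) Finset.univ_nonempty
      set φ : (Fin N → ℝ) → ℝ := fun y => exp B / S * ∑ σ, P σ * |exp (f (dot (xv N σ) y)) - exp (h (dot (xv N σ) y))|
      have hmeas : ∀ σ, Measurable fun y : Fin N → ℝ => |exp (f (dot (xv N σ) y)) - exp (h (dot (xv N σ) y))| := by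
        intro σ; unfold dot; fun_prop
      have hiσ : ∀ σ, Integrable (fun y : Fin N → ℝ => |exp (f (dot (xv N σ) y)) - exp (h (dot (xv N σ) y))|)
          (gauss (Fin N)) := fun σ =>
        integrable_bdd (hmeas σ) (C := exp B + exp B) fun y => by
          rw [abs_abs]
          refine (abs_sub _ _).trans (add_le_add ?_ ?_) <;> rw [abs_exp]
          exacts [exp_le_exp.2 (abs_le.1 (hfb _)).2, exp_le_exp.2 (abs_le.1 (hhb _)).2]
      have hφi : Integrable φ (gauss (Fin N)) :=
        (integrable_finsetSum _ fun σ _ => (hiσ σ).const_mul (P σ)).const_mul _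
      have hpt : ∀ y, G (y, g) - lz w h (ins 0 y g) ≤ φ y := fun y => by
        set a := ∑ σ, P σ * exp (f (dot (xv N σ) y))
        set b := ∑ σ, P σ * exp (h (dot (xv N σ) y))
        have ha : 0 < a := Finset.sum_pos (fun σ _ => mul_pos (hP0 σ) (exp_pos _)) Finset.univ_nonempty
        have hb : exp (-B) * S ≤ b := by
          rw [Finset.mul_sum]
          exact Finset.sum_le_sum fun σ _ => by
            rw [mul_comm]; exact mul_le_mul_of_nonneg_left (exp_le_exp.2 (abs_le.1 (hhb _)).1) (hP0 σ).le
        have hb0 : 0 < b := (mul_pos (exp_pos _) hS).trans_le hb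
        have hG : G (y, g) = log a := by
          simp only [G, lz, W, a, P]; exact congrArg log (Finset.sum_congr rfl fun σ _ => by ring)
        have hH : lz w h (ins 0 y g) = log b := by
          simp only [lz, ham_ins, b, P]; exact congrArg log (Finset.sum_congr rfl fun σ _ => by ring)
        rw [hG, hH, ← log_div ha.ne' hb0.ne']
        refine (log_le_sub_one_of_pos (div_pos ha hb0)).trans ?_
        rw [div_sub_one hb0.ne']
        have hab : a - b ≤ ∑ σ, P σ * |exp (f (dot (xv N σ) y)) - exp (h (dot (xv N σ) y))| := by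
          rw [← Finset.sum_sub_distrib]
          exact Finset.sum_le_sum fun σ _ => by
            rw [← mul_sub]; exact mul_le_mul_of_nonneg_left (le_abs_self _) (hP0 σ).le
        have hnn : 0 ≤ ∑ σ, P σ * |exp (f (dot (xv N σ) y)) - exp (h (dot (xv N σ) y))| :=
          Finset.sum_nonneg fun σ _ => mul_nonneg (hP0 σ).le (abs_nonneg _)
        refine (div_le_div_of_nonneg_right hab hb0.le).trans ((div_le_div_of_nonneg_left hnn
          (mul_pos (exp_pos _) hS) hb).trans_eq ?_)
        simp only [φ]
        rw [exp_neg]; field_simp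
      refine (integral_mono hg hφi hpt).trans ?_
      simp only [φ]
      rw [integral_const_mul, integral_finsetSum _ fun σ _ => (hiσ σ).const_mul (P σ)]
      simp only [integral_const_mul]
      have hd : ∀ σ, ∫ y, |exp (f (dot (xv N σ) y)) - exp (h (dot (xv N σ) y))| ∂gauss (Fin N) = d := fun σ =>
        integral_dot (F := fun z => |exp (f z) - exp (h z)|) (by fun_prop) _ (Lim.dot_xv hN σ)
      simp only [hd, ← Finset.sum_mul]
      show exp B / S * (S * d) ≤ exp B * d
      exact le_of_eq (by field_simp)
    rw [← mf.map_eq, integral_map mf.measurable.aemeasurable (measurable_lz hf w).aestronglyMeasurable,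
      integral_map mf.measurable.aemeasurable (measurable_lz hh w).aestronglyMeasurable]
    simp only [e1 _ _ f]
    push_cast
    linarith

/-- **`L¹` stability of the pressure** -/
theorem abs_pressure_close (hN : 0 < N) (hf : Measurable f) (hh : Measurable h) (hfb : ∀ x, |f x| ≤ B)
    (hhb : ∀ x, |h x| ≤ B) :
    |pressure (isingUniform N) f M - pressure (isingUniform N) h M| ≤
      M / N * (exp B * ∫ z, |exp (f z) - exp (h z)| ∂gaussianReal 0 1) := by
  have hN0 : (0:ℝ) < N := by exact_mod_cast hN
  have hw : ∀ σ, 0 < wt N σ := fun σ => by unfold wt; positivity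
  have h1 := lz_close hN hf hh hfb hhb M hw
  have h2 := lz_close hN hh hf hhb hfb M hw
  simp only [abs_sub_comm (exp (h _))] at h2
  rw [pressure_eq hf, pressure_eq hh, div_sub_div_same, abs_div, Nat.abs_cast, div_mul_eq_mul_div]
  exact div_le_div_of_nonneg_right (abs_le.2 ⟨by linarith, h1⟩) hN0.le

end Vale.Agent.P157.Par.Borel
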