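import Vale.Agent.P157.Par.Borel.Mehler

/-! The Parisi functional of the regularised weight against the Borel functional of the weight. -/

open MeasureTheory ProbabilityTheory Real

namespace Vale.Agent.P157.Par.Borel

open Parisi Br

variable {r : ℕ}

lemma nestG_box {a b : ℝ} {Y : ℝ → ℝ} (hY : Box a b Y) (ha : 0 < a) :
    ∀ (r : ℕ) (m d : Fin r → ℝ), (∀ p, 0 < m p) → Box a b (nestG r m d Y)
  | 0, _, _, _ => hY
  | r + 1, m, d, hm => by
    have hab : a ≤ b := (hY.2 0).1.trans (hY.2 0).2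
    have h1 := (((nestG_box hY ha r (Fin.tail m) (Fin.tail d) fun p => hm _).rpow ha.le (hm 0).le).avg (d 0)).rpow
      (rpow_nonneg ha.le _) (one_div_nonneg.2 (hm 0).le)
    rw [one_div, rpow_rpow_inv ha.le (hm 0).ne', rpow_rpow_inv (ha.le.trans hab) (hm 0).ne'] at h1
    simpa [nestG, one_div] using h1

lemma tiltG_box {a b c d' : ℝ} {Y F : ℝ → ℝ} (hY : Box a b Y) (ha : 0 < a) (hF : Box c d' F) :
    ∀ (r : ℕ) (m d : Fin r → ℝ), (∀ p, 0 < m p) → Box c d' (tiltG r m d Y F)
  | 0, _, _, _ => hF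
  | r + 1, m, d, hm => wmean_box ((nestG_box hY ha r (Fin.tail m) (Fin.tail d) fun p => hm _).rpow ha.le (hm 0).le)
      (rpow_pos_of_pos ha _) (tiltG_box hY ha hF r (Fin.tail m) (Fin.tail d) fun p => hm _) (d 0)

lemma sqG_box {a b K : ℝ} {Y F : ℝ → ℝ} (hY : Box a b Y) (ha : 0 < a) (hF : Box (-K) K F) :
    ∀ (r : ℕ) (m d : Fin r → ℝ), (∀ p, 0 < m p) → ∀ l : Fin (r + 1), Box 0 (K ^ 2) (sqG r m d Y F l)
  | 0, _, _, _, _ => ⟨hF.1.pow_const 2, fun y => ⟨sq_nonneg _, sq_le_sq' (hF.2 y).1 (hF.2 y).2⟩⟩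
  | r + 1, m, d, hm, l => by
    induction l using Fin.cases with
    | zero =>
      have h := tiltG_box hY ha hF (r + 1) m d hm
      exact ⟨h.1.pow_const 2, fun y => ⟨sq_nonneg _, sq_le_sq' (h.2 y).1 (h.2 y).2⟩⟩
    | succ l =>
      exact wmean_box ((nestG_box hY ha r (Fin.tail m) (Fin.tail d) fun p => hm _).rpow ha.le (hm 0).le)
        (rpow_pos_of_pos ha _) (sqG_box hY ha hF r (Fin.tail m) (Fin.tail d) (fun p => hm _) l) (d 0)

/-- Cauchy-Schwarz for one weighted step -/
lemma wmean_sq_le {a b K : ℝ} {W F : ℝ → ℝ} (hW : Box a b W) (ha : 0 < a) (hF : Box (-K) K F) (v y : ℝ) :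
    ((∫ z, W (y + √v * z) * F (y + √v * z) ∂gaussianReal 0 1) / ∫ z, W (y + √v * z) ∂gaussianReal 0 1) ^ 2 ≤
      (∫ z, W (y + √v * z) * F (y + √v * z) ^ 2 ∂gaussianReal 0 1) / ∫ z, W (y + √v * z) ∂gaussianReal 0 1 := by
  set S := ∫ z, W (y + √v * z) ∂gaussianReal 0 1
  have hS : 0 < S := ha.trans_le ((hW.avg v).2 y).1
  set T := (∫ z, W (y + √v * z) * F (y + √v * z) ∂gaussianReal 0 1) / S with hT
  have i0 := hW.int v y
  have hi : ∀ {G : ℝ → ℝ} {C : ℝ}, Measurable G → (∀ x, |G x| ≤ C) →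
      Integrable (fun z => W (y + √v * z) * G (y + √v * z)) (gaussianReal 0 1) := fun hG hb =>
    i0.mul_bdd (hG.comp (by fun_prop)).aestronglyMeasurable
      (Filter.Eventually.of_forall fun z => by rw [Real.norm_eq_abs]; exact hb _)
  have hK : ∀ x, |F x| ≤ K := fun x => abs_le.2 (hF.2 x)
  have hK2 : ∀ x, |F x ^ 2| ≤ K ^ 2 := fun x => by
    rw [abs_pow]; exact pow_le_pow_left₀ (abs_nonneg _) (hK x) 2
  have i1 := (hi hF.1 hK).const_mul (2 * T)
  have i2 := i0.const_mul (T ^ 2)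
  have h := integral_mono (i1.sub i2) (hi (hF.1.pow_const 2) hK2) fun z => by
    simp only [Pi.sub_apply]
    nlinarith [mul_nonneg (ha.le.trans (hW.2 (y + √v * z)).1) (sq_nonneg (F (y + √v * z) - T))]
  simp only [Pi.sub_apply] at h
  rw [integral_sub i1 i2, integral_const_mul, integral_const_mul] at h
  rw [le_div_iff₀ hS]
  have e : ∫ z, W (y + √v * z) * F (y + √v * z) ∂gaussianReal 0 1 = T * S := by rw [hT]; field_simp
  rw [e] at h
  nlinarith

lemma sqG_mono {a b K : ℝ} {Y F : ℝ → ℝ} (hY : Box a b Y) (ha : 0 < a) (hF : Box (-K) K F) :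
    ∀ (r : ℕ) (m d : Fin r → ℝ), (∀ p, 0 < m p) → ∀ (l : Fin r) (y : ℝ),
      sqG r m d Y F l.castSucc y ≤ sqG r m d Y F l.succ y
  | 0, _, _, _, l, _ => l.elim0
  | r + 1, m, d, hm, l, y => by
    have hm' : ∀ p, 0 < Fin.tail m p := fun p => hm _
    have hW := (nestG_box hY ha r (Fin.tail m) (Fin.tail d) hm').rpow ha.le (hm 0).le
    have haW : 0 < a ^ m 0 := rpow_pos_of_pos ha _
    have hS : 0 < ∫ z, nestG r (Fin.tail m) (Fin.tail d) Y (y + √(d 0) * z) ^ m 0 ∂gaussianReal 0 1 :=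
      haW.trans_le ((hW.avg (d 0)).2 y).1
    have hint : ∀ j, Integrable (fun z => nestG r (Fin.tail m) (Fin.tail d) Y (y + √(d 0) * z) ^ m 0 *
        sqG r (Fin.tail m) (Fin.tail d) Y F j (y + √(d 0) * z)) (gaussianReal 0 1) := fun j => by
      have h := sqG_box hY ha hF r (Fin.tail m) (Fin.tail d) hm' j
      refine (hW.int (d 0) y).mul_bdd (c := K ^ 2) (h.1.comp (by fun_prop)).aestronglyMeasurable
        (Filter.Eventually.of_forall fun z => ?_)
      rw [Real.norm_eq_abs, abs_of_nonneg (h.2 _).1]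
      exact (h.2 _).2
    induction l using Fin.cases with
    | zero =>
      simp only [Fin.castSucc_zero, sqG, Fin.cases_zero, Fin.cases_succ]
      have h := wmean_sq_le hW haW (tiltG_box hY ha hF r (Fin.tail m) (Fin.tail d) hm') (d 0) y
      refine h.trans (le_of_eq ?_)
      have e : ∀ x, sqG r (Fin.tail m) (Fin.tail d) Y F 0 x = tiltG r (Fin.tail m) (Fin.tail d) Y F x ^ 2 := by
        intro x
        cases r with
        | zero => rfl
        | succ r => simp [sqG]
      simp only [e]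
    | succ l =>
      simp only [← Fin.succ_castSucc, sqG, Fin.cases_succ]
      refine div_le_div_of_nonneg_right (integral_mono (hint _) (hint _) fun z => ?_) hS.le
      exact mul_le_mul_of_nonneg_left (sqG_mono hY ha hF r (Fin.tail m) (Fin.tail d) hm' l _)
        (haW.le.trans (hW.2 _).1)

variable {U : ℝ → ℝ} {B c : ℝ}

lemma Wt.box_log_deriv (hU : Wt U B) {v : ℝ} (hv : 0 < v) :
    ∃ K, Box (-K) K fun y => deriv (smooth U v) y / smooth U v y := by
  refine ⟨|(√v)⁻¹| * (exp B * ∫ z, exp (3 * |z|) ∂gaussianReal 0 1) / exp (-B),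
    (measurable_deriv _).div (hU.box_smooth v).1, fun y => _root_.abs_le.1 ?_⟩
  have h1 := abs_dk_le (v := v) hU.meas hU.abs_le 1 y
  rw [hU.deriv_smooth hv, abs_div, abs_of_pos (hU.smooth_pos v y)]
  refine div_le_div₀ (mul_nonneg (abs_nonneg _) ((abs_nonneg _).trans h1)) ?_ (exp_pos _) ((hU.box_smooth v).2 y).1
  simp only [div_eq_mul_inv, abs_mul, mul_comm |dk U v 1 y|]
  exact mul_le_mul_of_nonneg_left h1 (abs_nonneg _)

lemma gamB_mono (hU : Wt U B) {m : Fin r → ℝ} (hm : ∀ p, 0 < m p) {q : Fin (r + 1) → ℝ}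
    (hq : q (Fin.last r) < 1) : Monotone (gamB U m q) ∧ ∀ l, 0 ≤ gamB U m q l := by
  obtain ⟨K, hK⟩ := hU.box_log_deriv (sub_pos.2 hq)
  have hY := hU.box_smooth (1 - q (Fin.last r))
  have hb := sqG_box hY (exp_pos _) hK r m (incr q) hm
  refine ⟨Fin.monotone_iff_le_succ.2 fun l => ?_, fun l => integral_nonneg fun z => ((hb l).2 _).1⟩
  have hi : ∀ j, Integrable (fun z => sqG r m (incr q) (smooth U (1 - q (Fin.last r)))
      (fun y => deriv (smooth U (1 - q (Fin.last r))) y / smooth U (1 - q (Fin.last r)) y) j (√(q 0) * z))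
      (gaussianReal 0 1) := fun j => by simpa using (hb j).int (q 0) 0
  exact integral_mono (hi _) (hi _) fun z => sqG_mono hY (exp_pos _) hK r m (incr q) hm l _

/-- the functional of the regularised weight, exactly -/
theorem parisiValue_reg (hU : Wt U B) (hc0 : 0 < c) (hc1 : c < 1) (α : ℝ) (m : Fin r → ℝ)
    {q : Fin (r + 1) → ℝ} (hq1 : q (Fin.last r) ≤ 1) :
    parisiValue (regU c U) α r m q = parisiValueB U α r m (fun l => c * q l) +
      (spinTerm m (fun l => c * (α * gamB U m (fun l => c * q l) l)) -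
        c * (α * gamB U m (fun l => c * q l) (Fin.last r)) / 2) -
      (spinTerm m (fun l => α * gamB U m (fun l => c * q l) l) -
        α * gamB U m (fun l => c * q l) (Fin.last r) / 2) := by
  set v := 1 - q (Fin.last r)
  have hv : 0 ≤ v := sub_nonneg.2 hq1
  have hV : 1 - c + c * v = 1 - c * q (Fin.last r) := by simp only [v]; ring
  have hs : smooth (regU c U) v = fun x => smooth U (1 - c * q (Fin.last r)) (√c * x) := by
    rw [hU.smooth_reg hc0.le hc1.le hv, hV]
  have hsd : smooth (deriv (regU c U)) v =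
      fun x => √c * deriv (smooth U (1 - c * q (Fin.last r))) (√c * x) := by
    rw [hU.smooth_deriv_reg hc0 hc1 hv, hV]
  have e0 : ∀ z, √(c * q 0) * z = √c * (√(q 0) * z) := fun z => by rw [sqrt_mul hc0.le]; ring
  have hp : patternTerm (regU c U) m q = patternTerm U m fun l => c * q l := by
    simp only [patternTerm, incr_smul, e0, nestG_scale hc0.le]
    rw [hs]
  have hg : ∀ l, gam (regU c U) m q l = c * gamB U m (fun l => c * q l) l := fun l => by
    simp only [gam, gamB, incr_smul, e0, sqG_scale hc0.le, ← integral_const_mul]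
    refine integral_congr_ae (Filter.Eventually.of_forall fun z => ?_)
    show sqG r m (incr q) (smooth (regU c U) v) (fun y => smooth (deriv (regU c U)) v y / smooth (regU c U) v y)
      l _ = _
    rw [hs, hsd]
    simp only [mul_div_assoc]
    rw [sqG_smul, sq_sqrt hc0.le]
  simp only [parisiValue, parisiValueB, hp, hg]
  have e1 : (fun l => α * (c * gamB U m (fun l => c * q l) l)) =
      fun l => c * (α * gamB U m (fun l => c * q l) l) := funext fun l => mul_left_comm _ _ _
  have e2 : ∀ l : Fin (r + 1), c * gamB U m (fun l => c * q l) l * q l =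
      gamB U m (fun l => c * q l) l * (c * q l) := fun l => by ring
  rw [e1]
  simp only [e2]
  ring

/-- the two sided comparison -/
theorem parisiValue_reg_bounds (hU : Wt U B) (hc0 : 0 < c) (hc1 : c < 1) {α : ℝ} (hα : 0 ≤ α) {m : Fin r → ℝ}
    (hm : ∀ p, m p ∈ Set.Ioo (0:ℝ) 1) {q : Fin (r + 1) → ℝ} (hq1 : q (Fin.last r) ≤ 1) :
    parisiValueB U α r m (fun l => c * q l) ≤ parisiValue (regU c U) α r m q ∧
      parisiValue (regU c U) α r m q ≤ parisiValueB U α r m (fun l => c * q l) +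
        (1 - c) * (α * gamB U m (fun l => c * q l) (Fin.last r)) / 2 := by
  have hcq : c * q (Fin.last r) < 1 := (mul_le_of_le_one_right hc0.le hq1).trans_lt hc1
  obtain ⟨hmono, hnn⟩ := gamB_mono (q := fun l => c * q l) hU (fun p => (hm p).1) hcq
  have hs : Monotone fun l => α * gamB U m (fun l => c * q l) l := hmono.const_mul hα
  have h1 := spinTerm_scale (t := c) (fun p => (hm p).1) (fun p => (hm p).2.le) hs
    (mul_nonneg hα (hnn 0)) hc0.le hc1.le
  have h2 := spinTerm_mono (fun p => (hm p).1) (fun p => (hm p).2.le)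
    (fun l => α * gamB U m (fun l => c * q l) l) hc0.le hc1.le
  rw [parisiValue_reg hU hc0 hc1 α m hq1]
  constructor <;> linarith

end Vale.Agent.P157.Par.Borel
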