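import Vale.Agent.P157.Par.Borel.Spin
import Vale.Agent.P157.Par.Borel.Approx
import Vale.Agent.P157.Exact.Hermite
import Vale.Agent.P157.Upper

/-! The Mehler regularisation `U ↦ (y ↦ E U (√c y + √(1-c) z))` of a bounded measurable weight and the
exact behaviour of the Parisi functional under it. -/

open MeasureTheory ProbabilityTheory Real Filter
open scoped Topology

namespace Vale.Agent.P157.Par.Borel

open Parisi Br
open Vale.Agent.P157.Exact (H ex integral_ex_mul measurable_H)

/-- `∫ F (y + √v z) He_k(z)` -/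
noncomputable def dk (F : ℝ → ℝ) (v : ℝ) (k : ℕ) (y : ℝ) : ℝ :=
  ∫ z, F (y + √v * z) * H k z ∂gaussianReal 0 1

lemma abs_H_le (k : ℕ) (x : ℝ) : |H k x| ≤ exp (3 * |x|) := by
  have h1 : 1 ≤ exp (3 * |x|) := one_le_exp (by positivity)
  have h3 : exp (3 * |x|) = exp |x| ^ 3 := by rw [← exp_nat_mul]; norm_num
  have h4 : (1 + |x|) ^ 3 ≤ exp (3 * |x|) := by
    rw [h3]; exact pow_le_pow_left₀ (by positivity) (by linarith [add_one_le_exp |x|]) 3
  have e2 := sq_abs x
  have hn := abs_nonneg x
  rcases k with _ | _ | _ | _ | k <;> simp only [H]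
  · simp [h1]
  · nlinarith
  · rw [abs_le]; constructor <;> nlinarith
  · refine le_trans ?_ h4
    refine (abs_sub _ _).trans ?_
    rw [abs_pow, abs_mul, abs_of_pos (show (0:ℝ) < 3 by norm_num)]
    nlinarith
  · rw [abs_zero]; positivity

lemma hasDerivAt_H {k : ℕ} (hk : k < 3) (x : ℝ) : HasDerivAt (H k) (x * H k x - H (k + 1) x) x := by
  interval_cases k <;> simp only [H]
  · exact (hasDerivAt_const x (1:ℝ)).congr_deriv (by ring)
  · exact (hasDerivAt_id x).congr_deriv (by ring)
  · exact ((hasDerivAt_pow 2 x).sub_const 1).congr_deriv (by push_cast; ring)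

variable {F U : ℝ → ℝ} {A B c v : ℝ}

lemma integrable_dk (hF : Measurable F) (hb : ∀ x, |F x| ≤ A) (y : ℝ) (k : ℕ) (s : ℝ) :
    Integrable (fun z => F (y + s * z) * H k z) (gaussianReal 0 1) := by
  refine ((integrable_exp_abs 3).const_mul A).mono'
    ((hF.comp (by fun_prop)).mul (measurable_H k)).aestronglyMeasurable (Eventually.of_forall fun z => ?_)
  rw [Real.norm_eq_abs, abs_mul]
  exact mul_le_mul (hb _) (abs_H_le k z) (abs_nonneg _) ((abs_nonneg _).trans (hb 0))

lemma abs_dk_le (hF : Measurable F) (hb : ∀ x, |F x| ≤ A) (k : ℕ) (y : ℝ) :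
    |dk F v k y| ≤ A * ∫ z, exp (3 * |z|) ∂gaussianReal 0 1 := by
  refine abs_integral_le_integral_abs.trans ?_
  rw [← integral_const_mul]
  refine integral_mono (integrable_dk hF hb y k _).abs ((integrable_exp_abs 3).const_mul A) fun z => ?_
  rw [abs_mul]
  exact mul_le_mul (hb _) (abs_H_le k z) (abs_nonneg _) ((abs_nonneg _).trans (hb 0))

lemma hasDerivAt_dk (hF : Measurable F) (hb : ∀ x, |F x| ≤ A) (hv : 0 < v) {k : ℕ} (hk : k < 3) (y : ℝ) :
    HasDerivAt (dk F v k) (dk F v (k + 1) y / √v) y := by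
  have hA : 0 ≤ A := (abs_nonneg _).trans (hb 0)
  have hs : √v ≠ 0 := (sqrt_pos.2 hv).ne'
  have hrep : ∀ j a, dk F v j (√v * a) = ∫ x, F (√v * x) * H j (x - a) * ex a x ∂gaussianReal 0 1 := by
    intro j a
    have h := integral_ex_mul a (fun x => F (√v * x) * H j (x - a))
      ((hF.comp (by fun_prop)).mul ((measurable_H j).comp (by fun_prop)))
    rw [h]
    refine integral_congr_ae (Eventually.of_forall fun z => ?_)
    simp only [add_sub_cancel_right]
    rw [mul_add, add_comm (√v * z)]
  set G := fun a => ∫ x, F (√v * x) * H k (x - a) * ex a x ∂gaussianReal 0 1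
  have hmeas : ∀ j a, AEStronglyMeasurable (fun x => F (√v * x) * H j (x - a) * ex a x) (gaussianReal 0 1) :=
    fun j a => (((hF.comp (by fun_prop)).mul ((measurable_H j).comp (by fun_prop))).mul
      (by unfold ex; fun_prop)).aestronglyMeasurable
  set a₀ := y / √v
  set K := |a₀| + 1
  have hbd : ∀ j, ∀ a ∈ Metric.ball a₀ 1, ∀ x,
      ‖F (√v * x) * H j (x - a) * ex a x‖ ≤ A * exp (3 * K) * exp ((3 + K) * |x|) := by
    intro j a ha x
    rw [Metric.mem_ball, Real.dist_eq] at ha
    have haK : |a| ≤ K := by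
      have := abs_sub_abs_le_abs_sub a a₀
      simp only [K]; linarith
    rw [Real.norm_eq_abs, abs_mul, abs_mul, mul_assoc, mul_assoc, ← exp_add]
    refine mul_le_mul (hb _) ?_ (by positivity) hA
    simp only [ex, abs_exp]
    refine (mul_le_mul_of_nonneg_right (abs_H_le j _) (exp_pos _).le).trans ?_
    rw [← exp_add, exp_le_exp]
    have h2 := mul_le_mul_of_nonneg_right haK (abs_nonneg x)
    rw [← abs_mul] at h2
    nlinarith [abs_sub x a, le_abs_self (a * x), sq_nonneg a]
  have hder : HasDerivAt G (∫ x, F (√v * x) * H (k + 1) (x - a₀) * ex a₀ x ∂gaussianReal 0 1) a₀ := by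
    refine (hasDerivAt_integral_of_dominated_loc_of_deriv_le
      (F' := fun a x => F (√v * x) * H (k + 1) (x - a) * ex a x)
      (bound := fun x => A * exp (3 * K) * exp ((3 + K) * |x|)) (Metric.ball_mem_nhds a₀ one_pos)
      (Eventually.of_forall (hmeas k)) ?_ (hmeas (k + 1) a₀)
      (Eventually.of_forall fun x a ha => hbd (k + 1) a ha x) ((integrable_exp_abs _).const_mul _)
      (Eventually.of_forall fun x a _ => ?_)).2
    · exact ((integrable_exp_abs _).const_mul _).mono' (hmeas k a₀)
        (Eventually.of_forall (hbd k a₀ (Metric.mem_ball_self one_pos)))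
    · have h1 : HasDerivAt (fun a => H k (x - a)) (-((x - a) * H k (x - a) - H (k + 1) (x - a))) a := by
        simpa [Function.comp_def] using (hasDerivAt_H hk (x - a)).comp a ((hasDerivAt_id a).const_sub x)
      have h2 : HasDerivAt (fun a => ex a x) ((x - a) * ex a x) a := by
        have := (((hasDerivAt_id a).mul_const x).sub ((hasDerivAt_pow 2 a).div_const 2)).exp
        refine this.congr_deriv ?_
        simp only [ex, id_eq, Pi.sub_apply]; ring
      exact (((h1.mul h2).const_mul (F (√v * x))).congr_deriv (by ring)).congr_of_eventuallyEq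
        (Eventually.of_forall fun a => by simp [mul_assoc])
  have e : dk F v k = fun y => G (y / √v) := funext fun y => by
    show _ = ∫ x, _ ∂_
    rw [← hrep k, mul_div_cancel₀ _ hs]
  rw [e, show dk F v (k + 1) y = ∫ x, F (√v * x) * H (k + 1) (x - a₀) * ex a₀ x ∂gaussianReal 0 1 by
    rw [← hrep (k + 1), mul_div_cancel₀ _ hs]]
  have := hder.comp y ((hasDerivAt_id y).div_const √v)
  simpa [Function.comp_def, div_eq_mul_inv] using this

lemma dk_zero (F : ℝ → ℝ) (v : ℝ) : dk F v 0 = smooth F v := by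
  funext y; simp [dk, smooth, H]

/-- the Mehler regularisation -/
noncomputable def regU (c : ℝ) (U : ℝ → ℝ) (y : ℝ) : ℝ := smooth U (1 - c) (√c * y)

/-- a weight between `exp (-B)` and `exp B` -/
structure Wt (U : ℝ → ℝ) (B : ℝ) : Prop where
  meas : Measurable U
  lb : ∀ x, exp (-B) ≤ U x
  ub : ∀ x, U x ≤ exp B

namespace Wt

variable (hU : Wt U B)
include hU

lemma abs_le (x : ℝ) : |U x| ≤ exp B := by
  rw [abs_of_pos ((exp_pos _).trans_le (hU.lb x))]; exact hU.ub x

lemma box : Box (exp (-B)) (exp B) U := ⟨hU.meas, fun y => ⟨hU.lb y, hU.ub y⟩⟩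

lemma box_smooth (v : ℝ) : Box (exp (-B)) (exp B) (smooth U v) := hU.box.avg v

lemma smooth_pos (v y : ℝ) : 0 < smooth U v y := (exp_pos _).trans_le ((hU.box_smooth v).2 y).1

lemma hasDerivAt_smooth (hv : 0 < v) (y : ℝ) : HasDerivAt (smooth U v) (dk U v 1 y / √v) y := by
  simpa [dk_zero] using hasDerivAt_dk hU.meas hU.abs_le hv (k := 0) (by norm_num) y

lemma deriv_smooth (hv : 0 < v) : deriv (smooth U v) = fun y => dk U v 1 y / √v :=
  funext fun y => (hU.hasDerivAt_smooth hv y).deriv

lemma hasDerivAt_reg (hc1 : c < 1) (y : ℝ) :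
    HasDerivAt (regU c U) (√c / √(1 - c) * dk U (1 - c) 1 (√c * y)) y := by
  have := (hU.hasDerivAt_smooth (sub_pos.2 hc1) (√c * y)).comp y ((hasDerivAt_id y).const_mul √c)
  exact this.congr_deriv (by ring)

/-- the regularisation has bounded derivatives -/
theorem sm (hc1 : c < 1) : ∃ f1 f2 f3 D, Sm (fun y => log (regU c U y)) f1 f2 f3 B D ∧
    ∀ y, log (regU c U y) ≤ B := by
  set s := √c / √(1 - c)
  set W : ℕ → ℝ → ℝ := fun k y => s ^ k * dk U (1 - c) k (√c * y)
  have hW0 : W 0 = regU c U := by funext y; simp [W, regU, dk_zero]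
  have dW : ∀ k, k < 3 → ∀ y, HasDerivAt (W k) (W (k + 1) y) y := fun k hk y => by
    refine (((hasDerivAt_dk hU.meas hU.abs_le (sub_pos.2 hc1) hk (√c * y)).comp y
      ((hasDerivAt_id y).const_mul √c)).const_mul (s ^ k)).congr_deriv ?_
    simp only [W, s, pow_succ]; ring
  have hpos : ∀ y, exp (-B) ≤ W 0 y ∧ W 0 y ≤ exp B := fun y => by rw [hW0]; exact (hU.box_smooth _).2 _
  have hp : ∀ y, 0 < W 0 y := fun y => (exp_pos _).trans_le (hpos y).1
  set E := exp B * ∫ z, exp (3 * |z|) ∂gaussianReal 0 1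
  set K : ℕ → ℝ := fun k => |s| ^ k * E / exp (-B)
  have hK : ∀ k y, |W k y / W 0 y| ≤ K k := fun k y => by
    have hn := abs_dk_le (v := 1 - c) hU.meas hU.abs_le k (√c * y)
    rw [abs_div, abs_of_pos (hp y)]
    refine div_le_div₀ (mul_nonneg (by positivity) ((abs_nonneg _).trans hn)) ?_ (exp_pos _) (hpos y).1
    simp only [W, abs_mul, abs_pow]
    exact mul_le_mul_of_nonneg_left hn (by positivity)
  set g1 := fun y => W 1 y / W 0 y
  set g2 := fun y => W 2 y / W 0 y - g1 y * g1 y
  set g3 := fun y => W 3 y / W 0 y - W 2 y / W 0 y * g1 y - 2 * (g1 y * g2 y)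
  have d0 : ∀ y, HasDerivAt (fun y => log (W 0 y)) (g1 y) y := fun y => (dW 0 (by norm_num) y).log (hp y).ne'
  have dq : ∀ k, k < 3 → ∀ y, HasDerivAt (fun y => W k y / W 0 y) (W (k + 1) y / W 0 y - W k y / W 0 y * g1 y) y :=
    fun k hk y => ((dW k hk y).div (dW 0 (by norm_num) y) (hp y).ne').congr_deriv (by
      simp only [g1]; field_simp [(hp y).ne'])
  have d1 : ∀ y, HasDerivAt g1 (g2 y) y := fun y => dq 1 (by norm_num) y
  have d2 : ∀ y, HasDerivAt g2 (g3 y) y := fun y => ((dq 2 (by norm_num) y).sub ((d1 y).mul (d1 y))).congr_deriv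
    (by simp only [g3]; ring)
  have b1 : ∀ y, |g1 y| ≤ K 1 := hK 1
  have b2 : ∀ y, |g2 y| ≤ K 2 + K 1 * K 1 := fun y => (abs_sub _ _).trans (add_le_add (hK 2 y) (by
    rw [abs_mul]; exact mul_le_mul (b1 y) (b1 y) (abs_nonneg _) ((abs_nonneg _).trans (b1 y))))
  have n1 : 0 ≤ K 1 := (abs_nonneg _).trans (b1 0)
  have n2 : 0 ≤ K 2 := (abs_nonneg _).trans (hK 2 0)
  have n3 : 0 ≤ K 3 := (abs_nonneg _).trans (hK 3 0)
  have b3 : ∀ y, |g3 y| ≤ K 3 + K 2 * K 1 + 2 * (K 1 * (K 2 + K 1 * K 1)) := fun y => by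
    refine (abs_sub _ _).trans (add_le_add ((abs_sub _ _).trans (add_le_add (hK 3 y) ?_)) ?_)
    · rw [abs_mul]; exact mul_le_mul (hK 2 y) (b1 y) (abs_nonneg _) n2
    · rw [abs_mul, abs_two, abs_mul]
      exact mul_le_mul_of_nonneg_left (mul_le_mul (b1 y) (b2 y) (abs_nonneg _) n1) zero_le_two
  have hcont : ∀ k, Continuous fun y => W k y := by
    intro k
    rcases Nat.lt_or_ge k 3 with h | h
    · exact continuous_iff_continuousAt.2 fun y => (dW k h y).continuousAt
    · simp only [W, dk]
      refine continuous_const.mul ?_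
      rcases Nat.eq_or_lt_of_le h with rfl | h'
      · exact (continuous_dk3 hU (sub_pos.2 hc1)).comp (by fun_prop)
      · have : H k = fun _ => 0 := by
          obtain ⟨j, rfl⟩ : ∃ j, k = j + 4 := ⟨k - 4, by omega⟩
          simp [H]
        simp only [this, mul_zero, integral_zero]; exact continuous_const
  have hc3 : Continuous g3 := by
    have := hcont 0; have := hcont 1; have := hcont 2; have := hcont 3
    simp only [g3, g2, g1]
    fun_prop (disch := exact fun y => (hp y).ne')
  refine ⟨g1, g2, g3, K 1 + (K 2 + K 1 * K 1) + (K 3 + K 2 * K 1 + 2 * (K 1 * (K 2 + K 1 * K 1))),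
    ⟨fun y => by simpa [hW0] using d0 y, d1, d2, hc3, fun y => ?_, fun y => ?_, fun y => ?_, fun y => ?_⟩, fun y => ?_⟩
  · have := log_le_log (exp_pos _) (hpos y).1
    rw [log_exp, hW0] at this; exact this
  · exact (b1 y).trans (by nlinarith [mul_nonneg n2 n1, mul_nonneg n1 (add_nonneg n2 (mul_nonneg n1 n1))])
  · exact (b2 y).trans (by nlinarith [mul_nonneg n2 n1, mul_nonneg n1 (add_nonneg n2 (mul_nonneg n1 n1))])
  · exact (b3 y).trans (by nlinarith [mul_nonneg n1 n1])
  · have := log_le_log (hp y) (hpos y).2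
    rw [log_exp, hW0] at this; exact this
where
  continuous_dk3 {U : ℝ → ℝ} {B v : ℝ} (hU : Wt U B) (hv : 0 < v) : Continuous (dk U v 3) := by
    have hs : √v ≠ 0 := (sqrt_pos.2 hv).ne'
    have e : dk U v 3 = fun y => ∫ x, U (√v * x) * H 3 (x - y / √v) * ex (y / √v) x ∂gaussianReal 0 1 := by
      funext y
      have h := integral_ex_mul (y / √v) (fun x => U (√v * x) * H 3 (x - y / √v))
        ((hU.meas.comp (by fun_prop)).mul ((measurable_H 3).comp (by fun_prop)))
      rw [h]
      refine integral_congr_ae (Eventually.of_forall fun z => ?_)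
      simp only [add_sub_cancel_right]
      rw [mul_add, mul_div_cancel₀ _ hs, add_comm y]
    rw [e]
    refine continuous_iff_continuousAt.2 fun y₀ => ?_
    set K := (|y₀| + 1) / √v
    refine continuousAt_of_dominated (bound := fun x => exp B * exp (3 * K) * exp ((3 + K) * |x|))
      (Eventually.of_forall fun y => (((hU.meas.comp (by fun_prop)).mul ((measurable_H 3).comp (by fun_prop))).mul
        (by unfold ex; fun_prop)).aestronglyMeasurable) ?_ ((integrable_exp_abs _).const_mul _)
      (Eventually.of_forall fun x => Continuous.continuousAt (by simp only [H, ex]; fun_prop))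
    filter_upwards [Metric.ball_mem_nhds y₀ one_pos] with y hy
    refine Eventually.of_forall fun x => ?_
    rw [Metric.mem_ball, Real.dist_eq] at hy
    have haK : |y / √v| ≤ K := by
      rw [abs_div, abs_of_pos (sqrt_pos.2 hv)]
      exact div_le_div_of_nonneg_right (by linarith [abs_sub_abs_le_abs_sub y y₀]) (sqrt_nonneg v)
    generalize y / √v = a at haK
    rw [Real.norm_eq_abs, abs_mul, abs_mul, mul_assoc, mul_assoc, ← exp_add]
    refine mul_le_mul (hU.abs_le _) ?_ (by positivity) (exp_pos _).le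
    simp only [ex, abs_exp]
    refine (mul_le_mul_of_nonneg_right (abs_H_le 3 _) (exp_pos _).le).trans ?_
    rw [← exp_add, exp_le_exp]
    have h2 := mul_le_mul_of_nonneg_right haK (abs_nonneg x)
    rw [← abs_mul] at h2
    nlinarith [abs_sub x a, le_abs_self (a * x), sq_nonneg a]

lemma smooth_reg (hc0 : 0 ≤ c) (hc1 : c ≤ 1) (hv : 0 ≤ v) :
    smooth (regU c U) v = fun y => smooth U (1 - c + c * v) (√c * y) := by
  funext y
  have hb : Integrable (fun p : ℝ × ℝ => U (√c * y + √(c * v) * p.1 + √(1 - c) * p.2))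
      ((gaussianReal 0 1).prod (gaussianReal 0 1)) :=
    Integrable.of_bound (hU.meas.comp (by fun_prop)).aestronglyMeasurable (exp B)
      (Eventually.of_forall fun p => by rw [Real.norm_eq_abs]; exact hU.abs_le _)
  have h := gauss_two hU.meas _ _ _ hb
  rw [sq_sqrt (mul_nonneg hc0 hv), sq_sqrt (sub_nonneg.2 hc1), add_comm (c * v)] at h
  show _ = smooth U _ _
  simp only [smooth] at h ⊢
  rw [← h]
  refine integral_congr_ae (Eventually.of_forall fun z => ?_)
  simp only [regU, smooth]
  rw [sqrt_mul hc0]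
  refine integral_congr_ae (Eventually.of_forall fun w => congrArg U ?_)
  ring

lemma smooth_deriv_reg (hc0 : 0 < c) (hc1 : c < 1) (hv : 0 ≤ v) :
    smooth (deriv (regU c U)) v = fun y => √c * deriv (smooth U (1 - c + c * v)) (√c * y) := by
  have hV : 0 < 1 - c + c * v := by nlinarith
  set W1 := fun y => √c / √(1 - c) * dk U (1 - c) 1 (√c * y)
  have hd : deriv (regU c U) = W1 := funext fun y => (hU.hasDerivAt_reg hc1 y).deriv
  set C := |√c / √(1 - c)| * (exp B * ∫ z, exp (3 * |z|) ∂gaussianReal 0 1)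
  have hW1 : ∀ y, |W1 y| ≤ C := fun y => by
    rw [abs_mul]; exact mul_le_mul_of_nonneg_left (abs_dk_le hU.meas hU.abs_le 1 _) (abs_nonneg _)
  have hW1c : Continuous W1 := continuous_const.mul ((continuous_iff_continuousAt.2 fun y =>
    (hasDerivAt_dk hU.meas hU.abs_le (sub_pos.2 hc1) (k := 1) (by norm_num) y).continuousAt).comp (by fun_prop))
  have hrc : Continuous (regU c U) := continuous_iff_continuousAt.2 fun y => (hU.hasDerivAt_reg hc1 y).continuousAt
  funext y
  have h1 : HasDerivAt (smooth (regU c U) v) (smooth W1 v y) y := by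
    refine (hasDerivAt_integral_of_dominated_loc_of_deriv_le (F' := fun y z => W1 (y + √v * z))
      (bound := fun _ => C) Filter.univ_mem
      (Eventually.of_forall fun y => (hrc.comp (by fun_prop)).aestronglyMeasurable) ?_
      (hW1c.comp (by fun_prop)).aestronglyMeasurable (Eventually.of_forall fun z a _ => hW1 _)
      (integrable_const _) (Eventually.of_forall fun z a _ => ?_)).2
    · exact Integrable.of_bound (hrc.comp (by fun_prop)).aestronglyMeasurable (exp B)
        (Eventually.of_forall fun z => by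
          rw [Real.norm_eq_abs]
          exact (abs_of_pos (hU.smooth_pos (1 - c) (√c * (y + √v * z)))).trans_le ((hU.box_smooth _).2 _).2)
    · exact (hU.hasDerivAt_reg hc1 _).comp_add_const a (√v * z)
  have h2 : HasDerivAt (smooth (regU c U) v) (√c * deriv (smooth U (1 - c + c * v)) (√c * y)) y := by
    rw [hU.smooth_reg hc0.le hc1.le hv]
    exact (((hU.hasDerivAt_smooth hV (√c * y)).differentiableAt.hasDerivAt).comp y
      ((hasDerivAt_id y).const_mul √c)).congr_deriv (by ring)
  rw [hd]
  exact h1.unique h2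

/-- the regularisation converges in `L¹(γ)` -/
theorem reg_tendsto : Tendsto (fun c => ∫ y, |regU c U y - U y| ∂gaussianReal 0 1) (𝓝[Set.Iio 1] 1) (𝓝 0) := by
  rw [Metric.tendsto_nhds]
  intro ε hε
  obtain ⟨g, C, -, hgc, hgb, hgi, -⟩ := P157.exists_approx hU.meas hU.abs_le (show 0 < ε / 3 by positivity)
  have hlim : Tendsto (fun c => ∫ y, |regU c g y - g y| ∂gaussianReal 0 1) (𝓝[Set.Iio 1] 1) (𝓝 0) := by
    have hcont : ∀ c, Continuous (regU c g) := fun c =>
      continuous_of_dominated (bound := fun _ => exp B)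
        (fun y => (hgc.comp (by fun_prop)).aestronglyMeasurable)
        (fun y => Eventually.of_forall fun z => by rw [Real.norm_eq_abs]; exact hgb _) (integrable_const _)
        (Eventually.of_forall fun z => hgc.comp (by fun_prop))
    have h := tendsto_integral_filter_of_dominated_convergence (μ := gaussianReal 0 1)
      (F := fun c y => |regU c g y - g y|) (f := fun _ => (0:ℝ)) (l := 𝓝[Set.Iio 1] 1) (fun _ => 2 * exp B)
      (Eventually.of_forall fun c => ((hcont c).sub hgc).abs.aestronglyMeasurable)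
      (Eventually.of_forall fun c => Eventually.of_forall fun y => by
        rw [Real.norm_eq_abs, abs_abs]
        refine (abs_sub _ _).trans ((add_le_add (P157.abs_integral_le_of_abs_le fun z => hgb _) (hgb y)).trans_eq ?_)
        ring)
      (integrable_const _) (Eventually.of_forall fun y => ?_)
    · simpa using h
    · have hc : Continuous fun c => regU c g y := continuous_of_dominated (bound := fun _ => exp B)
        (fun c => (hgc.comp (by fun_prop)).aestronglyMeasurable)
        (fun c => Eventually.of_forall fun z => by rw [Real.norm_eq_abs]; exact hgb _) (integrable_const _)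
        (Eventually.of_forall fun z => hgc.comp (by fun_prop))
      have h1 : regU 1 g y = g y := by simp [regU, smooth]
      have h2 := ((hc.sub (continuous_const (y := g y))).abs.tendsto 1).mono_left
        (nhdsWithin_le_nhds (s := Set.Iio (1:ℝ)))
      simpa [h1] using h2
  filter_upwards [Metric.tendsto_nhds.1 hlim (ε / 3) (by positivity),
    Ioo_mem_nhdsLT (show (0:ℝ) < 1 by norm_num)] with c hcl hc
  have hb2 : ∀ F : ℝ → ℝ, Measurable F → (∀ x, |F x| ≤ exp B) → ∀ y,
      Integrable (fun z => F (√c * y + √(1 - c) * z)) (gaussianReal 0 1) := fun F hF hb y =>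
    P157.integrable_bdd (hF.comp (by fun_prop)) fun z => hb _
  have hm : ∀ F : ℝ → ℝ, Measurable F → Measurable (regU c F) := fun F hF =>
    ((hF.comp (show Measurable fun p : ℝ × ℝ => √c * p.1 + √(1 - c) * p.2 by fun_prop)).stronglyMeasurable
      |>.integral_prod_right').measurable
  set d := fun x => |U x - g x|
  have hdm : Measurable d := (hU.meas.sub hgc.measurable).abs
  have hdb : ∀ x, |d x| ≤ 2 * exp B := fun x => by
    rw [abs_abs]; exact (abs_sub _ _).trans ((add_le_add (hU.abs_le x) (hgb x)).trans_eq (by ring))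
  have hcontract : ∫ y, |regU c U y - regU c g y| ∂gaussianReal 0 1 ≤ ε / 3 := by
    have hi : Integrable (fun p : ℝ × ℝ => d (0 + √c * p.1 + √(1 - c) * p.2))
        ((gaussianReal 0 1).prod (gaussianReal 0 1)) := P157.integrable_bdd (hdm.comp (by fun_prop)) fun p => hdb _
    have h := gauss_two hdm _ _ 0 hi
    rw [sq_sqrt hc.1.le, sq_sqrt (sub_nonneg.2 hc.2.le), add_sub_cancel, sqrt_one] at h
    simp only [zero_add, one_mul] at h hi
    refine (integral_mono (P157.integrable_bdd ((hm U hU.meas).sub (hm g hgc.measurable)).abs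
      (C := 2 * exp B) fun y => ?_) hi.integral_prod_left fun y => ?_).trans (h.trans_le hgi)
    · rw [abs_abs]
      exact (abs_sub _ _).trans ((add_le_add (P157.abs_integral_le_of_abs_le fun z => hU.abs_le _)
        (P157.abs_integral_le_of_abs_le fun z => hgb _)).trans_eq (by ring))
    · simp only [Pi.sub_apply, regU, smooth]
      rw [← integral_sub (hb2 U hU.meas hU.abs_le y) (hb2 g hgc.measurable hgb y)]
      exact abs_integral_le_integral_abs
  have iA : ∀ F G : ℝ → ℝ, Measurable F → Measurable G → (∀ x, |F x| ≤ exp B) → (∀ x, |G x| ≤ exp B) →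
      Integrable (fun y => |F y - G y|) (gaussianReal 0 1) := fun F G hF hG hb hb' =>
    P157.integrable_bdd (hF.sub hG).abs (C := exp B + exp B) fun x => by
      rw [abs_abs]; exact (abs_sub _ _).trans (add_le_add (hb x) (hb' x))
  have rb : ∀ F : ℝ → ℝ, (∀ x, |F x| ≤ exp B) → ∀ x, |regU c F x| ≤ exp B := fun F hb x =>
    P157.abs_integral_le_of_abs_le fun z => hb _
  have i1 := iA _ _ (hm U hU.meas) (hm g hgc.measurable) (rb U hU.abs_le) (rb g hgb)
  have i2 := iA _ _ (hm g hgc.measurable) hgc.measurable (rb g hgb) hgb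
  have i3 := iA _ _ hgc.measurable hU.meas hgb hU.abs_le
  have hg3 : ∫ y, |g y - U y| ∂gaussianReal 0 1 ≤ ε / 3 := by simpa [abs_sub_comm] using hgi
  rw [Real.dist_eq, sub_zero, abs_of_nonneg (integral_nonneg fun y => abs_nonneg _)] at hcl ⊢
  have hle : ∫ y, |regU c U y - U y| ∂gaussianReal 0 1 ≤ (∫ y, |regU c U y - regU c g y| ∂gaussianReal 0 1) +
      (∫ y, |regU c g y - g y| ∂gaussianReal 0 1) + ∫ y, |g y - U y| ∂gaussianReal 0 1 := by
    have i12 : Integrable (fun y => |regU c U y - regU c g y| + |regU c g y - g y|) (gaussianReal 0 1) := i1.add i2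
    rw [← integral_add i1 i2, ← integral_add i12 i3]
    exact integral_mono (iA _ _ (hm U hU.meas) hU.meas (rb U hU.abs_le) hU.abs_le) (i12.add i3) fun y => by
      simp only [Pi.add_apply]
      linarith [abs_sub_le (regU c U y) (regU c g y) (U y), abs_sub_le (regU c g y) (g y) (U y)]
  linarith

end Wt

end Vale.Agent.P157.Par.Borel
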